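import Vale.Agent.P097F.H.Defs
import Vale.Agent.P097F.L.Mon

/-! # P097F, block H: the limit of maps into the lower half plane -/

set_option linter.all false

noncomputable section

namespace Vale.Agent.P097F.H

open Filter Topology Set Metric Complex

theorem hp2 : Spec_HP := by
  intro 𝒰 f U q₀ B hU hc m H B0 a
  have HH : L.HP 𝒰 f U := fun p hp => by
    obtain ⟨ρ, ρ0, e⟩ := H p hp
    exact ⟨ρ, ρ0, e.mono fun j k => ⟨k.1, fun q hq => k.2 q hq⟩⟩
  have K : IsCompact (closedBall (0 : ℂ) B ∩ {y : ℂ | y.im ≤ -B⁻¹}) :=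
    (isCompact_closedBall 0 B).inter_right (isClosed_le continuous_im continuous_const)
  obtain ⟨y, hy, t⟩ := K.ultrafilter_le_nhds (𝒰.map fun j => f j q₀)
    (le_principal_iff.2 (a.mono fun j k => ⟨mem_closedBall_zero_iff.2 k.1, k.2⟩))
  have y0 : y.im < 0 := lt_of_le_of_lt hy.2 (neg_lt_zero.2 (inv_pos.2 B0))
  obtain ⟨g, an, mp, cv⟩ := L.mon 𝒰 hU hc HH m y0 t
  refine ⟨fun x hx => ?_, g, an, fun q hq => mp hq, cv⟩
  obtain ⟨ρ, ρ0, e⟩ := H x hx
  obtain ⟨σ, σ0, s⟩ := nhds_basis_closedBall.mem_iff.1 (hU.mem_nhds hx)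
  obtain ⟨M, hM⟩ := (isCompact_closedBall x σ).exists_bound_of_continuousOn
    (an.continuousOn.mono s)
  refine ⟨min ρ σ, lt_min ρ0 σ0, M + 1, ?_⟩
  have b : ∀ᶠ j in (𝒰 : Filter ℕ), ∀ p ∈ closedBall x σ, ‖f j p‖ ≤ M + 1 := by
    by_contra n
    have n' := Ultrafilter.eventually_not.2 n
    have ex : ∀ j, ∃ p ∈ closedBall x σ,
        (¬ ∀ p ∈ closedBall x σ, ‖f j p‖ ≤ M + 1) → M + 1 < ‖f j p‖ := fun j => by
      by_cases k : ∀ p ∈ closedBall x σ, ‖f j p‖ ≤ M + 1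
      · exact ⟨x, mem_closedBall_self σ0.le, fun h => absurd k h⟩
      · push Not at k
        obtain ⟨p, k1, k2⟩ := k
        exact ⟨p, k1, fun _ => k2⟩
    choose p p1 p2 using ex
    obtain ⟨z, hz, tz⟩ := (isCompact_closedBall x σ).ultrafilter_le_nhds (𝒰.map p)
      (le_principal_iff.2 (mem_map.2 (Eventually.of_forall p1)))
    have := ge_of_tendsto (cv z (s hz) p tz).norm (n'.mono fun j k => (p2 j k).le)
    linarith [hM z hz]
  filter_upwards [e, b] with j k1 k2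
  exact ⟨k1.1.mono (ball_subset_ball (min_le_left _ _)), fun p hp =>
    k2 p (ball_subset_closedBall (ball_subset_ball (min_le_right _ _) hp))⟩

end Vale.Agent.P097F.H
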