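import Vale.Agent.P097F.H.Kink

/-!
# P097F/H: a convex kink of the real lower bound gives a gain on a small disc
-/

set_option linter.all false

noncomputable section

namespace Vale.Agent.P097F.H.Kink

open Set Metric Complex

/-- the upper half of a small circle -/
theorem half {c : ℂ → ℂ} {n lam β ν r : ℝ} {N : ℕ} (dc : DifferentiableOn ℂ c (ball 0 1))
    (c1 : ∀ z ∈ ball (0 : ℂ) 1, ‖c z‖ ≤ 1) (n0 : 0 ≤ n) (l1 : lam ≤ 1) (hβ : |β| ≤ 51 / 100)
    (ν0 : 0 < ν) (r0 : 0 < r) (r1 : r ≤ 1 / 2) (hr : 4 * ν * (2 ^ (N + 1) * r) ≤ 1)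
    (hN : 24 ≤ ν * N)
    (h : ∀ x : ℝ, |x| ≤ 7 / 10 →
      ‖c x‖ ≤ Real.exp (-(n * (lam + 16 * (β * x - x ^ 2) + 16 * ν * |x|)))) :
    ∀ z : ℂ, ‖z‖ = r → 0 ≤ z.im →
      ‖c z‖ ≤ Real.exp (-(n * (lam + 16 * β * z.re - 16 * r ^ 2 + 2 * ν * r))) := by
  set φ : ℂ → ℂ := fun z => lam + 16 * (β * z - z ^ 2) + 24 * I * z + (4 * ν : ℝ) * ps r N z
    with hφ
  have rφ : ∀ z : ℂ, (φ z).re = lam + 16 * (β * z.re - z.re ^ 2 + z.im ^ 2) - 24 * z.im +
      4 * ν * (ps r N z).re := fun z => by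
    simp only [hφ, add_re, re_ofReal_mul, ofReal_re]
    simp [pow_two]
    ring
  have cl : closure (Ioo (-(7 / 10) : ℝ) (7 / 10) ×ℂ Ioo 0 (1 / 2)) =
      Icc (-(7 / 10) : ℝ) (7 / 10) ×ℂ Icc 0 (1 / 2) := by
    rw [closure_reProdIm, closure_Ioo (by norm_num), closure_Ioo (by norm_num)]
  have sub : ∀ w ∈ Icc (-(7 / 10) : ℝ) (7 / 10) ×ℂ Icc 0 (1 / 2), w ∈ ball (0 : ℂ) 1 :=
    fun w hw => by
      rw [mem_ball_zero_iff, ← sq_lt_sq₀ (norm_nonneg _) zero_le_one, Complex.sq_norm,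
        normSq_apply]
      nlinarith [hw.1.1, hw.1.2, hw.2.1, hw.2.2]
  have dφ : DifferentiableOn ℂ φ (Icc (-(7 / 10) : ℝ) (7 / 10) ×ℂ Icc 0 (1 / 2)) :=
    DifferentiableOn.add (by fun_prop) (((ps_diff r0 N).mono fun w hw =>
      lt_of_lt_of_le (by linarith) hw.2.1).const_mul _)
  have key : ∀ w ∈ Icc (-(7 / 10) : ℝ) (7 / 10) ×ℂ Icc 0 (1 / 2),
      ‖c w * exp (n * φ w)‖ ≤ 1 := fun w hw => by
    refine norm_le_of_forall_mem_frontier_norm_le
      (U := Ioo (-(7 / 10) : ℝ) (7 / 10) ×ℂ Ioo 0 (1 / 2)) (f := fun w => c w * exp (n * φ w))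
      ((isBounded_Ioo _ _).reProdIm (isBounded_Ioo _ _))
      (DifferentiableOn.diffContOnCl (by
        rw [cl]
        exact (dc.mono sub).mul (dφ.const_mul _).cexp)) (fun w hw => ?_) (by rwa [cl])
    have m : w ∈ Icc (-(7 / 10) : ℝ) (7 / 10) ×ℂ Icc 0 (1 / 2) := cl ▸ frontier_subset_closure hw
    have p1 : 4 * ν * (ps r N w).re ≤ 1 := (mul_le_mul_of_nonneg_left
      ((re_le_norm _).trans (ps_norm r0 N m.2.1)) (by positivity)).trans hr
    have z : (φ w).re ≤ 0 → ‖c w * exp (n * φ w)‖ ≤ 1 := fun k => by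
      rw [norm_mul, norm_exp, re_ofReal_mul]
      exact mul_le_one₀ (c1 w (sub w m)) (Real.exp_pos _).le
        (Real.exp_le_one_iff.2 (mul_nonpos_of_nonneg_of_nonpos n0 k))
    have b1 := abs_le.1 hβ
    rw [frontier_reProdIm, frontier_Ioo (by norm_num), frontier_Ioo (by norm_num)] at hw
    rcases hw with ⟨-, k | k⟩ | ⟨k, -⟩
    · have e1 : w = (w.re : ℝ) := Complex.ext rfl k
      have := h w.re (abs_le.2 m.1)
      rw [← e1] at this
      rw [norm_mul, norm_exp, re_ofReal_mul]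
      refine (mul_le_mul_of_nonneg_right this (Real.exp_pos _).le).trans ?_
      rw [← Real.exp_add, Real.exp_le_one_iff, neg_add_eq_sub, sub_nonpos]
      refine mul_le_mul_of_nonneg_left ?_ n0
      have p2 := ps_real r0 N w.re
      rw [← e1] at p2
      have k : w.im = 0 := k
      rw [rφ, k]
      nlinarith
    · refine z ?_
      have k : w.im = 1 / 2 := k
      rw [rφ, k]
      nlinarith [sq_nonneg (w.re - β / 2)]
    · refine z ?_
      rw [rφ]
      have v0 : 0 ≤ w.im := m.2.1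
      have v1 : w.im ≤ 1 / 2 := m.2.2
      rcases k with k | k
      · rw [show w.re = -(7 / 10) from k]
        nlinarith
      · rw [show w.re = 7 / 10 from k]
        nlinarith
  intro z hz v0
  have a1 := abs_le.1 ((abs_re_le_norm z).trans hz.le)
  have a2 := (im_le_norm z).trans hz.le
  have := key z ⟨⟨by linarith, by linarith⟩, v0, by linarith⟩
  rw [norm_mul, norm_exp, re_ofReal_mul, ← le_div_iff₀ (Real.exp_pos _), one_div,
    ← Real.exp_neg] at this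
  refine this.trans (Real.exp_le_exp.2 (neg_le_neg (mul_le_mul_of_nonneg_left ?_ n0)))
  have p := mul_le_mul_of_nonneg_left (ps_circ r0 N v0 hz) (show 0 ≤ 4 * ν by positivity)
  rw [rφ]
  nlinarith [mul_le_mul_of_nonneg_right hN v0, sq_nonneg z.im]

/-- the gain on a small disc -/
theorem gain {ν : ℝ} (ν0 : 0 < ν) : ∃ γ > (0 : ℝ), γ ≤ 1 / 100 ∧ ∀ (c : ℂ → ℂ) (n lam β : ℝ),
    DifferentiableOn ℂ c (ball 0 1) → (∀ z ∈ ball (0 : ℂ) 1, ‖c z‖ ≤ 1) → 0 ≤ n → lam ≤ 1 →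
    |β| ≤ 51 / 100 → (∀ x : ℝ, |x| ≤ 7 / 10 →
      ‖c x‖ ≤ Real.exp (-(n * (lam + 16 * (β * x - x ^ 2) + 16 * ν * |x|)))) →
    ∀ z : ℂ, ‖z‖ ≤ γ → ‖c z‖ ≤ Real.exp (-(n * (lam + 20 * γ))) := by
  obtain ⟨N, hN⟩ := exists_nat_ge (24 / ν)
  rw [div_le_iff₀ ν0, mul_comm] at hN
  obtain ⟨r, r0, r1, r2, r3⟩ : ∃ r > (0 : ℝ), r ≤ 1 / 2 ∧ r ≤ ν / 32 ∧
      r ≤ 1 / (4 * ν * 2 ^ (N + 1)) :=
    ⟨min (1 / 2) (min (ν / 32) (1 / (4 * ν * 2 ^ (N + 1)))), by positivity, min_le_left _ _,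
      (min_le_right _ _).trans (min_le_left _ _), (min_le_right _ _).trans (min_le_right _ _)⟩
  rw [le_div_iff₀ (by positivity)] at r3
  have hr : 4 * ν * (2 ^ (N + 1) * r) ≤ 1 := by linarith
  refine ⟨min (min (1 / 100) r) (ν * r / 32), by positivity,
    (min_le_left _ _).trans (min_le_left _ _), ?_⟩
  intro c n lam β dc c1 n0 l1 hβ h z hz
  have g1 : min (min (1 / 100) r) (ν * r / 32) ≤ r := (min_le_left _ _).trans (min_le_right _ _)
  have g2 : min (min (1 / 100) r) (ν * r / 32) ≤ ν * r / 32 := min_le_right _ _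
  generalize min (min (1 / 100) r) (ν * r / 32) = γ at hz g1 g2
  have mb : ∀ w ∈ ball (0 : ℂ) 1, (starRingEnd ℂ) w ∈ ball (0 : ℂ) 1 := fun w hw => by
    simpa using hw
  have k1 := half dc c1 n0 l1 hβ ν0 r0 r1 hr hN h
  have k2 := half (c := (starRingEnd ℂ) ∘ c ∘ (starRingEnd ℂ))
    (fun w hw => by
      have := (dc.differentiableAt (isOpen_ball.mem_nhds (mb w hw))).conj_conj
      rw [conj_conj] at this
      exact this.differentiableWithinAt)
    (fun w hw => by simpa using c1 _ (mb w hw)) n0 l1 hβ ν0 r0 r1 hr hN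
    fun x hx => by simpa using h x hx
  have k3 : ∀ w : ℂ, ‖w‖ = r →
      ‖c w‖ ≤ Real.exp (-(n * (lam + 16 * β * w.re - 16 * r ^ 2 + 2 * ν * r))) := fun w hw => by
    rcases le_total 0 w.im with v | v
    · exact k1 w hw v
    · simpa using k2 ((starRingEnd ℂ) w) (by simpa using hw) (by rw [conj_im]; linarith)
  have k4 : ‖c z * exp ((n * (16 * β) : ℝ) * z)‖ ≤
      Real.exp (-(n * (lam - 16 * r ^ 2 + 2 * ν * r))) := by
    refine norm_le_of_forall_mem_frontier_norm_le (U := ball 0 r)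
      (f := fun w => c w * exp ((n * (16 * β) : ℝ) * w)) isBounded_ball
      (DifferentiableOn.diffContOnCl (by
        rw [closure_ball 0 r0.ne']
        exact (dc.mono (closedBall_subset_ball (by linarith))).mul (by fun_prop)))
      (fun w hw => ?_) (by rw [closure_ball 0 r0.ne', mem_closedBall_zero_iff]; linarith)
    rw [frontier_ball 0 r0.ne', mem_sphere_zero_iff_norm] at hw
    rw [norm_mul, norm_exp, re_ofReal_mul]
    refine (mul_le_mul_of_nonneg_right (k3 w hw) (Real.exp_pos _).le).trans_eq ?_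
    rw [← Real.exp_add]
    congr 1
    ring
  rw [norm_mul, norm_exp, re_ofReal_mul, ← le_div_iff₀ (Real.exp_pos _), ← Real.exp_sub] at k4
  refine k4.trans (Real.exp_le_exp.2 ?_)
  have a1 : |β * z.re| ≤ 51 / 100 * γ := by
    rw [abs_mul]
    exact mul_le_mul hβ ((abs_re_le_norm z).trans hz) (abs_nonneg _) (by norm_num)
  have a2 : lam + 20 * γ ≤ lam - 16 * r ^ 2 + 2 * ν * r + 16 * β * z.re := by
    nlinarith [(abs_le.1 a1).1]
  nlinarith [mul_le_mul_of_nonneg_left a2 n0]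

end Vale.Agent.P097F.H.Kink
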