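import Vale.Agent.P097F.H.Defs
import Vale.Agent.P097F.H.SepA
import Vale.Agent.P097N.Coef

/-!
# P097F/H: different centres have different touching points
-/

set_option linter.all false

noncomputable section

namespace Vale.Agent.P097F.H

open Filter Topology Set Metric Complex Vale.Agent.P097T Vale.Agent.P097Top
open Vale.Agent.P097N (co)

namespace Sep

theorem to_exp {k M R A : ℝ} {n : ℕ} (k0 : 0 ≤ k) (M0 : 0 < M) (h : k * R ^ n ≤ 1)
    (e : M * Real.exp A ≤ R) : k * M ^ n ≤ Real.exp (-(n * A)) := by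
  have := (mul_le_mul_of_nonneg_left (pow_le_pow_left₀ (by positivity) e n) k0).trans h
  rw [mul_pow, ← Real.exp_nat_mul, ← mul_assoc] at this
  rwa [Real.exp_neg, inv_eq_one_div, le_div_iff₀ (Real.exp_pos _)]

theorem of_exp {k M A : ℝ} {n : ℕ} (h : k * M ^ n ≤ Real.exp (-(n * A))) :
    k * (M * Real.exp A) ^ n ≤ 1 := by
  rw [mul_pow, ← Real.exp_nat_mul, ← mul_assoc]
  rwa [Real.exp_neg, inv_eq_one_div, le_div_iff₀ (Real.exp_pos _)] at h

theorem logf {R R' A B : ℝ} (R0 : 0 < R) (h : R * Real.exp A ≤ R' * Real.exp B) :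
    Real.log R + A - B ≤ Real.log R' := by
  have R1 : 0 < R' := (mul_pos_iff_of_pos_right (Real.exp_pos B)).1
    ((mul_pos R0 (Real.exp_pos A)).trans_le h)
  have := Real.log_le_log (by positivity) h
  rw [Real.log_mul R0.ne' (Real.exp_pos _).ne', Real.log_mul R1.ne' (Real.exp_pos _).ne',
    Real.log_exp, Real.log_exp] at this
  linarith

theorem kink {L₁ L₂ L₃ a e d x γ ν : ℝ} (γ0 : 0 ≤ γ) (e1 : |e| ≤ 1 / 4) (e2 : ν ≤ |e|)
    (d1 : |d| ≤ γ) (l2 : L₁ + 16 * a ^ 2 - 16 * (d + a) ^ 2 ≤ L₂)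
    (p1 : L₁ + 16 * a ^ 2 - 16 * (x + a) ^ 2 ≤ L₃)
    (p2 : L₂ + 16 * (d + a - e) ^ 2 - 16 * (x + a - e) ^ 2 ≤ L₃) :
    L₁ - 8 * γ + 16 * ((e - 2 * a) * x - x ^ 2) + 16 * ν * |x| ≤ L₃ := by
  have p3 : ν * |x| ≤ |e * x| := by
    rw [abs_mul]
    exact mul_le_mul_of_nonneg_right e2 (abs_nonneg _)
  have p4 : d * e ≤ γ * (1 / 4) := (le_abs_self _).trans (by
    rw [abs_mul]
    exact mul_le_mul d1 e1 (abs_nonneg _) γ0)
  rcases abs_cases (e * x) with ⟨k, -⟩ | ⟨k, -⟩ <;> rw [k] at p3 <;> linarith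

theorem dcay {r : ℝ} (r0 : 0 < r) : ∀ y ∈ Strip r, DifferentiableAt ℂ (cay r) y := fun y hy => by
  refine DifferentiableAt.div (by fun_prop) (by fun_prop) fun k => ?_
  have k1 : 0 < (exp (Real.pi * y / (2 * r))).re := by
    rw [exp_re]
    refine mul_pos (Real.exp_pos _) (Real.cos_pos_of_mem_Ioo (abs_lt.1 ?_))
    rw [show (Real.pi : ℂ) * y / (2 * r) = (Real.pi / (2 * r) : ℝ) * y by push_cast; ring,
      im_ofReal_mul, abs_mul, abs_of_pos (by positivity), div_mul_eq_mul_div,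
      div_lt_div_iff₀ (by positivity) two_pos]
    nlinarith [mul_lt_mul_of_pos_left (show |y.im| < r from hy) Real.pi_pos]
  have := congrArg re k
  simp only [add_re, one_re, zero_re] at this
  linarith

/-- the real part of the argument -/
theorem low {η : ℝ → ℝ} {M ρ u₁ u' u'' u v γ ν : ℝ} (M0 : 0 < M) (ρ0 : 0 < ρ) (γ0 : 0 < γ)
    (γ1 : γ ≤ 1 / 100) (hη : ∀ t : ℝ, |t - u₁| < 2 * ρ → η t ≤ M) (h1 : |u' - u₁| ≤ ρ / 8)
    (h2 : |u'' - u₁| ≤ ρ / 8) (T1 : Tch η M ρ u' u) (T2 : Tch η M ρ u'' v)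
    (hν : ν * ρ ≤ |u' - u''|) (hc : |u - v| ≤ γ * ρ) : |u - u₁| ≤ ρ / 2 ∧ ∃ β : ℝ,
      |β| ≤ 51 / 100 ∧ ∀ x : ℝ, |x| ≤ 7 / 10 → |u + ρ * x - u₁| < 2 * ρ ∧
        M * Real.exp (Real.log (2 * M - η u) - Real.log M - 8 * γ + 16 * (β * x - x ^ 2) +
          16 * ν * |x|) ≤ 2 * M - η (u + ρ * x) := by
  obtain ⟨a, ha⟩ : ∃ a, u = u' + ρ * a := ⟨(u - u') / ρ, by field_simp; ring⟩
  obtain ⟨e, he⟩ : ∃ e, u'' = u' + ρ * e := ⟨(u'' - u') / ρ, by field_simp; ring⟩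
  obtain ⟨d, hd⟩ : ∃ d, v = u + ρ * d := ⟨(v - u) / ρ, by field_simp; ring⟩
  have ab : ∀ x y : ℝ, |ρ * x| ≤ ρ * y ↔ |x| ≤ y := fun x y => by
    rw [abs_mul, abs_of_pos ρ0, mul_le_mul_iff_right₀ ρ0]
  have ab1 : ∀ x : ℝ, |x| ≤ 1 → |ρ * x| ≤ ρ := fun x h => by simpa using (ab x 1).2 h
  have a1 : |a| ≤ 1 / 4 := (ab _ _).1 (by
    have := T1.1
    rwa [show u - u' = ρ * a by linarith, show ρ / 4 = ρ * (1 / 4) by ring] at this)
  have b1 : |d + a - e| ≤ 1 / 4 := (ab _ _).1 (by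
    have := T2.1
    rwa [show v - u'' = ρ * (d + a - e) by linarith, show ρ / 4 = ρ * (1 / 4) by ring] at this)
  have e1 : |e| ≤ 1 / 4 := (ab _ _).1 (by
    rw [show ρ * e = u'' - u₁ - (u' - u₁) by linarith]
    linarith [abs_sub (u'' - u₁) (u' - u₁)])
  have e2 : ν ≤ |e| := by
    rw [show u' - u'' = -(ρ * e) by linarith, abs_neg, abs_mul, abs_of_pos ρ0, mul_comm] at hν
    exact le_of_mul_le_mul_left hν ρ0
  have d1 : |d| ≤ γ := (ab _ _).1 (by
    rw [show ρ * d = -(u - v) by linarith, abs_neg, mul_comm]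
    exact hc)
  have a2 := abs_le.1 a1
  have b2 := abs_le.1 b1
  have d2 := abs_le.1 d1
  have nu : |u - u₁| ≤ ρ / 2 := by linarith [abs_sub_le u u' u₁, T1.1]
  have near : ∀ x : ℝ, |x| ≤ 1 → |u + ρ * x - u₁| < 2 * ρ := fun x hx => by
    rw [show u + ρ * x - u₁ = u - u₁ + ρ * x by ring]
    linarith [abs_add_le (u - u₁) (ρ * x), ab1 x hx]
  have R1 : 0 < 2 * M - η u := by linarith [hη u (by linarith)]
  have R2 : 0 < 2 * M - η v := by linarith [hη v (hd ▸ near d (by linarith))]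
  have q : ∀ x : ℝ, ρ * x / ρ = x := fun x => mul_div_cancel_left₀ x ρ0.ne'
  have l2 := logf R1 (T1.2 v (by
    rw [show v - u' = ρ * (d + a) by linarith]
    exact ab1 _ (abs_le.2 ⟨by linarith, by linarith⟩)))
  rw [show u - u' = ρ * a by linarith, show v - u' = ρ * (d + a) by linarith, q, q] at l2
  refine ⟨nu, e - 2 * a, abs_le.2 ⟨by linarith, by linarith⟩, fun x hx =>
    ⟨near x (by linarith), ?_⟩⟩
  have x2 := abs_le.1 hx
  have R3 : 0 < 2 * M - η (u + ρ * x) := by linarith [hη _ (near x (by linarith))]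
  have p1 := logf R1 (T1.2 (u + ρ * x) (by
    rw [show u + ρ * x - u' = ρ * (x + a) by linarith]
    exact ab1 _ (abs_le.2 ⟨by linarith, by linarith⟩)))
  rw [show u - u' = ρ * a by linarith, show u + ρ * x - u' = ρ * (x + a) by linarith, q, q] at p1
  have p2 := logf R2 (T2.2 (u + ρ * x) (by
    rw [show u + ρ * x - u'' = ρ * (x + a - e) by linarith]
    exact ab1 _ (abs_le.2 ⟨by linarith, by linarith⟩)))
  rw [show v - u'' = ρ * (d + a - e) by linarith,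
    show u + ρ * x - u'' = ρ * (x + a - e) by linarith, q, q] at p2
  rw [← Real.log_le_log_iff (by positivity) R3, Real.log_mul M0.ne' (Real.exp_pos _).ne',
    Real.log_exp]
  linarith [kink γ0.le e1 e2 d1 l2 p1 p2]

end Sep

open Sep in
theorem sep (hC : S_CB) (hS : S_STR) (hR : S_RAISE) : Spec_SEP := by
  intro ν ν0
  obtain ⟨γ, γ0, γ1, hγ⟩ := Kink.gain ν0
  refine ⟨γ, γ0, ?_⟩
  intro r κ u₀ θ H Y₀ η Y s L M u₁ ρ u' u'' u v Z F A h1 h2 T1 T2 hν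
  by_contra hc
  have ρ0 := A.ρ0
  have M0 := A.M0
  obtain ⟨c1, c2, c3⟩ := hC r κ u₀ θ H Y₀ η Y s L M u₁ ρ Z F A
  obtain ⟨nu', β, hβ, low⟩ := low M0 ρ0 γ0 γ1 A.eta h1 h2 T1 T2 hν (not_le.1 hc).le
  have nu : |u - u₁| < 2 * ρ := by linarith
  have Io : u ∈ Ioo 0 u₀ :=
    ⟨by linarith [A.lo, (abs_lt.1 nu).1], by linarith [A.hi, (abs_lt.1 nu).2]⟩
  have R1 : M ≤ 2 * M - η u := by linarith [A.eta u nu]
  obtain ⟨lam, hl⟩ : ∃ lam, lam = Real.log (2 * M - η u) - Real.log M - 8 * γ := ⟨_, rfl⟩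
  rw [← hl] at low
  have lam1 : lam ≤ 1 := by
    have := Real.log_le_log (M0.trans_le R1) (show 2 * M - η u ≤ 2 * M by linarith [F.nn u Io])
    rw [Real.log_mul two_ne_zero M0.ne'] at this
    linarith [Real.log_two_lt_d9]
  have mb : ∀ z ∈ ball (0 : ℂ) 1, (u : ℂ) + ρ * z ∈ ball (u₁ : ℂ) (2 * ρ) := fun z hz => by
    have k : ‖(u : ℂ) - u₁‖ ≤ ρ := by
      rw [← ofReal_sub, norm_real, Real.norm_eq_abs]
      linarith
    have k2 : ‖(ρ : ℂ) * z‖ < ρ := by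
      rw [norm_mul, norm_real, Real.norm_of_nonneg ρ0.le]
      exact mul_lt_of_lt_one_right ρ0 (mem_ball_zero_iff.1 hz)
    rw [mem_ball_iff_norm, show (u : ℂ) + ρ * z - u₁ = u - u₁ + ρ * z by ring]
    linarith [norm_add_le ((u : ℂ) - u₁) (ρ * z)]
  have r0 : 0 < r := by linarith [A.Mr]
  have sb : ball (u : ℂ) (γ * ρ) ⊆ ball (u₁ : ℂ) (2 * ρ) := fun w hw => by
    have := mb ((w - u) / ρ) (by
      rw [mem_ball_zero_iff, norm_div, norm_real, Real.norm_of_nonneg ρ0.le, div_lt_one ρ0]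
      exact (mem_ball_iff_norm.1 hw).trans_le (mul_le_of_le_one_left ρ0.le (by linarith)))
    rwa [mul_div_cancel₀ _ (ofReal_ne_zero.2 ρ0.ne'), add_sub_cancel] at this
  have sx : Bx ⟨s, r - 2 * M⟩ L M ⊆ Bx ⟨s, r - 2 * M⟩ (L + M) M := fun x hx =>
    ⟨by linarith [hx.1], hx.2⟩
  have dc := dcay r0
  have key : ∀ w ∈ ball (u : ℂ) (γ * ρ), Cb (fun q => cay r (Z q)) ⟨s, r - 2 * M⟩ L w
      (M * Real.exp (lam + 20 * γ)) := fun w hw x₀ k n i1 i2 => by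
    have nm : ∀ y : ℂ, ‖y * (M : ℂ) ^ n‖ = ‖y‖ * M ^ n := fun y => by
      rw [norm_mul, norm_pow, norm_real, Real.norm_of_nonneg M0.le]
    have := hγ (fun z => co (fun q => cay r (Z q) ^ k) x₀ (u + ρ * z) n * (M : ℂ) ^ n) n lam β
      (((P097N.Coef.co_diff (bx_open _ _ _) isOpen_ball
        (show x₀ ∈ Bx ⟨s, r - 2 * M⟩ (L + M) M from ⟨by linarith, by rw [i1]; simpa using M0⟩)
        (fun q hq => ((dc _ (A.mem hq)).comp_differentiableWithinAt q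
          (A.an.differentiableOn q hq)).pow k) n).comp (by fun_prop) mb).mul_const _)
      (fun z hz => by rw [nm]; exact c1 _ (mb z hz) x₀ k n i1 i2) n.cast_nonneg lam1 hβ
      (fun x hx => by
        rw [nm]
        have := c2 _ (low x hx).1 x₀ k n i1 i2
        push_cast at this
        exact to_exp (norm_nonneg _) M0 this (low x hx).2)
      ((w - u) / ρ) (by
        rw [norm_div, norm_real, Real.norm_of_nonneg ρ0.le, div_le_iff₀ ρ0]
        exact (mem_ball_iff_norm.1 hw).le)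
    rw [nm, mul_div_cancel₀ _ (ofReal_ne_zero.2 ρ0.ne'), add_sub_cancel] at this
    exact of_exp this
  have big : 2 * M - η u < M * Real.exp (lam + 20 * γ) := by
    rw [← Real.log_lt_log_iff (M0.trans_le R1) (by positivity),
      Real.log_mul M0.ne' (Real.exp_pos _).ne', Real.log_exp]
    linarith
  obtain ⟨G, aG, hG⟩ := hS Z ⟨s, r - 2 * M⟩ r L M (ball u (γ * ρ))
    (fun _ => M * Real.exp (lam + 20 * γ)) r0 M0 isOpen_ball continuous_const
    (fun _ => by positivity) (A.an.mono (prod_mono sx sb)) (A.mem.mono_left (prod_mono sx sb)) key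
  have L0 : 0 < L := by linarith [A.wd, A.lo]
  have m0 : (⟨s, r - 2 * M⟩ : ℂ) ∈ Bx ⟨s, r - 2 * M⟩ L M := ⟨by simpa using L0, by simpa using M0⟩
  have sx' : Bx ⟨s, r - 2 * M⟩ L M ⊆ Bx ⟨s, r - 2 * M⟩ L (M * Real.exp (lam + 20 * γ)) :=
    fun x hx => ⟨hx.1, by linarith [hx.2]⟩
  have := hR r κ u₀ θ H Y₀ η Y ⟨s, r - 2 * M⟩ ⟨s, r - 2 * M⟩ L (M * Real.exp (lam + 20 * γ))
    (γ * ρ) u G F Io (by positivity) (by linarith [A.wd, A.lo, (abs_lt.1 nu).2])
    (aG.mono fun q hq => ⟨hq.2, hq.1⟩) (fun q hq => (hG q hq.2 hq.1).1) (sx' m0)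
    (by
      show |r - 2 * M| < r - η u
      rw [abs_of_pos (by linarith [A.Mr])]
      linarith)
    (EventuallyEq.trans (by
      filter_upwards [((bx_open _ _ _).prod isOpen_ball).mem_nhds
        (show ((⟨s, r - 2 * M⟩ : ℂ), (u : ℂ)) ∈ Bx ⟨s, r - 2 * M⟩ L M ×ˢ ball (u : ℂ) (γ * ρ) from
          ⟨m0, mem_ball_self (by positivity)⟩)] with q hq
      exact (hG q hq.2 (sx' hq.1)).2 hq.1.2) (A.eq u nu))
  simp only at this
  linarith

end Vale.Agent.P097F.H
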