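import Vale.Agent.P097F.H.WrapA

/-!
# P097F, block H: the wedges at the touching steps
-/

set_option linter.all false

noncomputable section

namespace Vale.Agent.P097F

open Filter Topology Set Metric Complex Vale.Agent.P097T
open Vale.Agent.P097D (Lo)

theorem wr_lim (𝒰 : Ultrafilter ℕ) {f : ℕ → ℝ} {a b : ℝ} (h : ∀ᶠ n in (𝒰 : Filter ℕ), f n ∈ Icc a b) :
    ∃ c ∈ Icc a b, Tendsto f 𝒰 (𝓝 c) :=
  isCompact_Icc.ultrafilter_le_nhds (𝒰.map f) (le_principal_iff.2 h)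

theorem wd_open (a L T ρ K C : ℝ) :
    IsOpen {z : (ℝ × ℝ × ℝ) × ℂ × ℂ | z.2 ∈ Wd a L T ρ K C z.1.1 z.1.2.1 z.1.2.2} := by
  simp only [Wd, mem_setOf_eq, mem_ball, setOf_and]
  refine (isOpen_lt ?_ ?_).inter ((isOpen_lt ?_ ?_).inter ((isOpen_lt ?_ ?_).inter
    (isOpen_lt ?_ ?_))) <;> fun_prop

theorem wd_convex (a L T ρ v H b : ℝ) {K C : ℝ} (K0 : 0 ≤ K) (C0 : 0 ≤ C) :
    Convex ℝ (Wd a L T ρ K C v H b) := by
  rintro q ⟨a1, a2, a3, a4⟩ q' ⟨b1, b2, b3, b4⟩ l m l0 m0 lm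
  have cv : ∀ x y c : ℝ, x < c → y < c → l * x + m * y < c := fun x y c h1 h2 =>
    convex_Iio c h1 h2 l0 m0 lm
  refine ⟨convex_ball _ _ a1 b1 l0 m0 lm, ?_, ?_, ?_⟩ <;>
    simp only [Prod.snd_add, Prod.fst_add, Prod.smul_snd, Prod.smul_fst, add_re, add_im, smul_re,
      smul_im, smul_eq_mul]
  · refine lt_of_le_of_lt ?_ (cv _ _ _ a2 b2)
    rw [show l * q.2.re + m * q'.2.re - a = l * (q.2.re - a) + m * (q'.2.re - a) by
      linear_combination a * lm]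
    refine (abs_add_le _ _).trans ?_
    rw [abs_mul, abs_mul, abs_of_nonneg l0, abs_of_nonneg m0]
  · have := cv _ _ _ (neg_lt_neg a3) (neg_lt_neg b3)
    linarith
  · have h1 := cv (q.2.im + (b * (q.1.re - v) + K * (q.1.re - v) ^ 2 + C * |q.1.im|))
      (q'.2.im + (b * (q'.1.re - v) + K * (q'.1.re - v) ^ 2 + C * |q'.1.im|)) H
      (by linarith) (by linarith)
    have h2 : |l * q.1.im + m * q'.1.im| ≤ l * |q.1.im| + m * |q'.1.im| := by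
      refine (abs_add_le _ _).trans ?_
      rw [abs_mul, abs_mul, abs_of_nonneg l0, abs_of_nonneg m0]
    rw [show l * q.1.re + m * q'.1.re - v = l * (q.1.re - v) + m * (q'.1.re - v) by
      linear_combination v * lm]
    have h3 : (l * (q.1.re - v) + m * (q'.1.re - v)) ^ 2 ≤
        l * (q.1.re - v) ^ 2 + m * (q'.1.re - v) ^ 2 := by
      obtain rfl : m = 1 - l := by linarith
      nlinarith [mul_nonneg (mul_nonneg l0 m0) (sq_nonneg (q.1.re - q'.1.re))]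
    nlinarith [mul_le_mul_of_nonneg_left h2 C0, mul_le_mul_of_nonneg_left h3 K0]

/-- the limit of the true families on the wedges -/
theorem loc_of (HP : H.Spec_HP) {𝒰 : Ultrafilter ℕ} {ε : ℕ → ℝ} {θ h : ℕ → ℂ → ℂ}
    {U : ℕ → Set ℂ} {a L T ρ K C : ℝ} {v H b : ℕ → ℝ} {v₀ H₀ b₀ : ℝ} {Z : ℕ → ℂ × ℂ → ℂ}
    {Z₀ : ℂ × ℂ → ℂ} (ρ0 : 0 < ρ) (K0 : 0 ≤ K) (C1 : 1 ≤ C) (bC : ∀ n, |b n| ≤ C)
    (lv : Tendsto v 𝒰 (𝓝 v₀)) (lH : Tendsto H 𝒰 (𝓝 H₀)) (lb : Tendsto b 𝒰 (𝓝 b₀))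
    (hi : -T + 2 ≤ H₀ - 2 * C * ρ - K * ρ ^ 2) (L0 : 0 < L) (T3 : 3 ≤ T)
    (tr : ∀ᶠ n in (𝒰 : Filter ℕ), U n ⊆ Lo 0 ∧ ∃ F,
      Tru (ε n) (θ n) (h n) (U n) (Wd a L T ρ K C (v n) (H n) (b n)) (v n) (H n) F ∧
      ∀ q ∈ Wd a L T ρ K C (v n) (H n) (b n), q.2.im < -T + 1 → F q = Z n q ∧ ‖Z n q - q.2‖ ≤ 1)
    (cc : ∀ q ∈ ball (v₀ : ℂ) ρ ×ˢ D.Rc (a - L) (a + L) (-T) (-T + 1),
      Tendsto (fun n => Z n q) 𝒰 (𝓝 (Z₀ q))) :
    ∃ F F₀, Loc 𝒰 ε θ h U a L T ρ K C v H b v₀ H₀ b₀ F F₀ ∧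
      EqOn F₀ Z₀ (ball (v₀ : ℂ) ρ ×ˢ D.Rc (a - L) (a + L) (-T) (-T + 1)) := by
  obtain ⟨F, hF⟩ := (tr.mono fun n k => k.2).choice
  have near : ∀ q ∈ Wd a L T ρ K C v₀ H₀ b₀, ∃ r > 0, ∀ᶠ n in (𝒰 : Filter ℕ),
      ball q r ⊆ Wd a L T ρ K C (v n) (H n) (b n) := fun q hq => by
    have := (wd_open a L T ρ K C).mem_nhds (x := ((v₀, H₀, b₀), q)) hq
    obtain ⟨A, hA, B, hB, s⟩ := mem_nhds_prod_iff.1 this
    obtain ⟨r, r0, sB⟩ := Metric.mem_nhds_iff.1 hB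
    refine ⟨r, r0, ?_⟩
    filter_upwards [(lv.prodMk_nhds (lH.prodMk_nhds lb)).eventually hA] with n k p hp
    exact s (mk_mem_prod k (sB hp))
  have b0 : |b₀| ≤ C := le_of_tendsto' lb.abs bC
  have sub : ball (v₀ : ℂ) ρ ×ˢ D.Rc (a - L) (a + L) (-T) (-T + 1) ⊆ Wd a L T ρ K C v₀ H₀ b₀ := by
    rintro ⟨W, x⟩ ⟨h1, h2, h3, h4, h5⟩
    refine ⟨h1, abs_lt.2 ⟨by linarith, by linarith⟩, h4, ?_⟩
    rw [mem_ball, dist_eq_norm] at h1
    have r1 : |W.re - v₀| ≤ ρ := by simpa using (abs_re_le_norm _).trans h1.le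
    have r2 : |W.im| ≤ ρ := by simpa using (abs_im_le_norm _).trans h1.le
    have r3 : b₀ * (W.re - v₀) ≤ C * ρ := (le_abs_self _).trans (by
      rw [abs_mul]; exact mul_le_mul b0 r1 (abs_nonneg _) (by linarith))
    have r4 : (W.re - v₀) ^ 2 ≤ ρ ^ 2 := sq_le_sq' (abs_le.1 r1).1 (abs_le.1 r1).2
    simp only at h5 ⊢
    nlinarith [mul_le_mul_of_nonneg_left r4 K0, mul_le_mul_of_nonneg_left r2 (by linarith : 0 ≤ C)]
  have low : ∀ q ∈ ball (v₀ : ℂ) ρ ×ˢ D.Rc (a - L) (a + L) (-T) (-T + 1),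
      ∀ᶠ n in (𝒰 : Filter ℕ), F n q = Z n q ∧ ‖Z n q - q.2‖ ≤ 1 := fun q hq => by
    obtain ⟨r, r0, k⟩ := near q (sub hq)
    filter_upwards [k, hF] with n k1 k2
    exact k2.2 q (k1 (mem_ball_self r0)) hq.2.2.2.2
  set q₀ : ℂ × ℂ := (v₀, ⟨a, -T + 1 / 2⟩) with hq₀
  have m₀ : q₀ ∈ ball (v₀ : ℂ) ρ ×ˢ D.Rc (a - L) (a + L) (-T) (-T + 1) :=
    ⟨mem_ball_self ρ0, by simp [hq₀, L0], by simp [hq₀, L0], by simp [hq₀], by norm_num [hq₀]⟩
  obtain ⟨-, F₀, g1, g2, g3⟩ := HP 𝒰 F (Wd a L T ρ K C v₀ H₀ b₀) q₀ (‖q₀.2‖ + 1)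
    ((wd_open a L T ρ K C).preimage (f := fun q => ((v₀, H₀, b₀), q)) (by fun_prop))
    (wd_convex _ _ _ _ _ _ _ K0 (by linarith)).isPreconnected (sub m₀)
    (fun q hq => by
      obtain ⟨r, r0, k⟩ := near q hq
      refine ⟨r, r0, ?_⟩
      filter_upwards [k, hF, tr] with n k1 k2 k3
      exact ⟨(k2.1.an.mono k1).differentiableOn, fun p hp => k3.1 (k2.1.mem (k1 hp))⟩)
    (by positivity) (by
      filter_upwards [low q₀ m₀] with n k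
      rw [k.1]
      have h1 := norm_le_norm_sub_add (Z n q₀) q₀.2
      have h2 := (le_abs_self _).trans ((abs_im_le_norm _).trans k.2)
      have h3 : (‖q₀.2‖ + 1)⁻¹ ≤ 1 := inv_le_one_of_one_le₀ (le_add_of_nonneg_left (norm_nonneg _))
      rw [sub_im, show q₀.2.im = -T + 1 / 2 from rfl] at h2
      exact ⟨by linarith [k.2], by linarith⟩)
  refine ⟨F, F₀, ⟨ρ0, K0, C1, bC, lv, lH, lb, hi, hF.mono fun n k => k.1, g1, g2, g3⟩,
    fun q hq => tendsto_nhds_unique (g3 q (sub hq) _ tendsto_const_nhds)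
      ((cc q hq).congr' ((low q hq).mono fun n k => k.1.symm))⟩

/-- the scales of the windows are separated -/
theorem gd_ev {X : DD} {N j : ℕ} {a : ℝ → ℝ} {M W₁ : ℝ} {𝒰 : Ultrafilter ℕ} {u s : ℕ → ℝ}
    {g : ℂ → ℂ} (N8 : 8 ≤ N) (E : P097W.Envl X.η X.u₀ X.p N a) (Wn : Win X a j M 𝒰 u s g)
    (w3 : 3 ≤ W₁) : ∀ᶠ n in (𝒰 : Filter ℕ), X.Gd (u n) W₁ := by
  have F := X.dat.fam
  have r0 := X.dat.cur.rpos
  have u0 : Tendsto u atTop (𝓝 0) := by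
    refine squeeze_zero (fun n => (Wn.pk n).1.1.le) (fun n => ?_)
      (by simpa using Wn.ep0.mul_const X.r)
    obtain ⟨h1, h2, -⟩ := Wn.pk n
    rw [DD.ep, div_mul_eq_mul_div, le_div_iff₀ h2]
    exact mul_le_mul_of_nonneg_left (by linarith [F.low _ h1, F.sol.pos]) h1.1.le
  obtain ⟨C, hC⟩ := X.dat.pw
  have W0 : 0 < W₁ := by linarith
  have t1 : Tendsto (fun n => C * u n) atTop (𝓝 0) := by simpa using u0.const_mul C
  have t2 : Tendsto (fun n => 4 * W₁ * u n) atTop (𝓝 0) := by simpa using u0.const_mul (4 * W₁)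
  refine Eventually.filter_mono Wn.le ?_
  filter_upwards [Wn.ep0.eventually (gt_mem_nhds one_pos), t2.eventually (gt_mem_nhds F.pos),
    t1.eventually (gt_mem_nhds (show 0 < (X.r / (6 * W₁ ^ 5)) ^ (X.p + 1) by positivity))]
    with n k1 k2 k3
  obtain ⟨h1, h2, h3⟩ := Wn.pk n
  have k4 := lt_of_pow_lt_pow_left₀ _ (by positivity) ((hC _ h1).trans_lt k3)
  rw [lt_div_iff₀ (by positivity)] at k4
  rw [DD.ep, div_lt_one h2] at k1
  refine ⟨h1.1, h2, k1.le, k2, by linarith, fun t ht => ?_⟩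
  have uW := mul_pos W0 h1.1
  obtain ⟨t3, t4⟩ := abs_lt.1 ht
  have w1 : 1 ≤ W₁ := by linarith
  have m1 : 27 * W₁ ^ 2 ≤ W₁ ^ 5 := by
    have := pow_le_pow_left₀ (by norm_num) w3 3
    nlinarith [sq_nonneg W₁]
  have a1 := E.one (X.η (u n))
  set τ := W₁ ^ 5 * X.η (u n) / 2 with hτ
  have τ1 : X.η (u n) ≤ τ := by
    rw [hτ]; nlinarith [mul_le_mul_of_nonneg_right (show 2 ≤ W₁ ^ 5 by nlinarith) h2.le]
  have d : a τ ≤ a (X.η (u n)) * W₁ := by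
    refine le_of_pow_le_pow_left₀ (n := N) (by omega) (by positivity)
      (le_of_mul_le_mul_right ((E.dec τ _ h2 τ1).trans ?_) h2)
    rw [mul_pow, mul_assoc]
    refine mul_le_mul_of_nonneg_left ?_ (by positivity)
    have := pow_le_pow_right₀ w1 (show 5 ≤ N by omega)
    rw [hτ]
    nlinarith [pow_pos W0 5]
  have := E.en τ 1 t (h2.trans_le τ1) le_rfl ⟨by linarith, by linarith⟩ (by
    have a2 := E.one τ
    calc t * a τ * 1 ^ (X.p + 1) ≤ 4 * W₁ * u n * (a (X.η (u n)) * W₁) := by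
          rw [one_pow, mul_one]
          exact mul_le_mul (by linarith) d (by linarith) (by linarith)
      _ = 4 * W₁ ^ 2 * (a (X.η (u n)) * u n) := by ring
      _ ≤ 4 * W₁ ^ 2 * (2 * X.η (u n)) := by gcongr
      _ ≤ τ := by rw [hτ]; nlinarith [mul_le_mul_of_nonneg_right m1 h2.le, mul_pos (pow_pos W0 2) h2])
  linarith

theorem specH_of (TC : H.Spec_TCH) (PA : H.Spec_PAR) (CO : H.Spec_CONE) (SE : H.Spec_SEP)
    (HP : H.Spec_HP) : Spec_H := by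
  intro X N j a M 𝒰 u s g C₁ N8 E Wn
  refine ⟨max 3 (48 * C₁), fun W₁ hW B0 => ?_⟩
  have w3 : 3 ≤ W₁ := (le_max_left _ _).trans hW
  have wC : 48 * C₁ ≤ W₁ := (le_max_right _ _).trans hW
  have W0 : 0 < W₁ := by linarith
  have G := gd_ev N8 E Wn w3
  have F := X.dat.fam
  have m1 : 243 ≤ W₁ ^ 5 := le_of_eq_of_le (by norm_num) (pow_le_pow_left₀ (by norm_num) w3 5)
  have m2 : 3 * W₁ ^ 5 ≤ W₁ ^ 6 := by nlinarith
  have m3 : (W₁ ^ 3) ^ 4 * (1 + (W₁ ^ 6 + W₁ ^ 5)) ≤ (W₁ ^ 5) ^ 4 := by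
    rw [show (W₁ ^ 5) ^ 4 = (W₁ ^ 3) ^ 4 * (W₁ ^ 2 * W₁ ^ 6) by ring]
    refine mul_le_mul_of_nonneg_left ?_ (by positivity)
    nlinarith [mul_le_mul_of_nonneg_right (show 9 ≤ W₁ ^ 2 by nlinarith) (pow_pos W0 6).le]
  have m4 : 1 ≤ 48 * W₁ ^ 4 := by nlinarith [one_le_pow₀ (show 1 ≤ W₁ by linarith) (n := 4)]
  have ex : ∀ (n : ℕ) (w : ℝ), ∃ t : ℝ, |t - w| ≤ 3 / 16 * W₁ ∧ (X.Gd (u n) W₁ →
      |w - 2 * W₁| ≤ 3 / 32 * W₁ → H.Tch X.η (W₁ ^ 5 * X.η (u n)) (3 / 4 * W₁ * u n) (u n * w)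
        (u n * t)) := fun n w => by
    by_cases k : X.Gd (u n) W₁ ∧ |w - 2 * W₁| ≤ 3 / 32 * W₁
    · obtain ⟨k, hw⟩ := k
      have u0 := k.u0
      have e0 := k.e0
      have q1 := mul_le_mul_of_nonneg_left (abs_le.1 hw).1 u0.le
      have q2 := mul_le_mul_of_nonneg_left (abs_le.1 hw).2 u0.le
      have uW := mul_pos W0 u0
      obtain ⟨t, ht⟩ := TC _ _ _ _ _ _ _ _ (W₁ ^ 5 * X.η (u n)) (3 / 4 * W₁ * u n) (u n * w) F
        (by positivity) (by positivity) (by linarith) (by linarith [k.hi]) fun v hv =>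
          k.eta v (abs_lt.2 ⟨by linarith [(abs_le.1 hv).1], by linarith [(abs_le.1 hv).2]⟩)
      have e : u n * (t / u n) = t := by field_simp
      refine ⟨t / u n, ?_, fun _ _ => by rwa [e]⟩
      have := ht.1
      rw [← e, ← mul_sub, abs_mul, abs_of_pos u0] at this
      exact le_of_mul_le_mul_left (by linarith) u0
    · exact ⟨w, by simp; positivity, fun h1 h2 => (k ⟨h1, h2⟩).elim⟩
  choose v v1 v2 using ex
  have lv := fun w : ℝ => wr_lim 𝒰 (f := fun n => v n w) (a := w - 3 / 16 * W₁)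
    (b := w + 3 / 16 * W₁) (Eventually.of_forall fun n =>
      ⟨by linarith [(abs_le.1 (v1 n w)).1], by linarith [(abs_le.1 (v1 n w)).2]⟩)
  choose v₀ l1 l2 using lv
  set J := Icc (2 * W₁ - 3 / 32 * W₁) (2 * W₁ + 3 / 32 * W₁) with hJ
  have mJ : ∀ w ∈ J, |w - 2 * W₁| ≤ 3 / 32 * W₁ := fun w h =>
    abs_le.2 ⟨by linarith [h.1], by linarith [h.2]⟩
  have cJ : ∀ n, 0 < u n → ∀ w ∈ J, |u n * w - 2 * W₁ * u n| ≤ 3 / 4 * W₁ * u n / 8 :=
    fun n u0 w h => by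
      rw [show u n * w - 2 * W₁ * u n = u n * (w - 2 * W₁) by ring, abs_mul, abs_of_pos u0]
      linarith [mul_le_mul_of_nonneg_left (mJ w h) u0.le]
  have inj : InjOn v₀ J := fun w hw w' hw' e => by
    by_contra ne
    obtain ⟨Z, Z₀, Dp⟩ := B0 (W₁ ^ 6 + W₁ ^ 5) (W₁ ^ 5) (by positivity) (by positivity) m3
    obtain ⟨δ, δ0, hδ⟩ := SE (|w - w'| / (3 / 4 * W₁))
      (div_pos (abs_pos.2 (sub_ne_zero.2 ne)) (by positivity))
    have t := ((l2 w).sub (l2 w')).abs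
    rw [e, sub_self, abs_zero] at t
    refine absurd (ge_of_tendsto t (b := δ * (3 / 4 * W₁)) ?_) (not_le.2 (by positivity))
    filter_upwards [G, Dp.tr] with n k d
    have u0 := k.u0
    have := hδ _ _ _ _ _ _ _ _ _ _ _ _ _ _ _ _ _ _ F (DD.apr_of k w3 d.1 d.2.1 d.2.2)
      (cJ n u0 w hw) (cJ n u0 w' hw') (v2 n w k (mJ w hw)) (v2 n w' k (mJ w' hw')) (by
        rw [← mul_sub, abs_mul, abs_of_pos u0]
        exact le_of_eq (by field_simp))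
    rw [← mul_sub, abs_mul, abs_of_pos u0] at this
    exact le_of_mul_le_mul_left (by linarith) u0
  refine ⟨W₁ ^ 6, 2 * W₁ ^ 5, 3 / 400 * W₁, 512 / 9 * W₁ ^ 3, 48 * W₁ ^ 4, W₁ ^ 6 + W₁ ^ 5, W₁ ^ 5,
    by positivity, by positivity, m3, by linarith, by linarith, by linarith, le_rfl, by linarith,
    by nlinarith [mul_le_mul_of_nonneg_right wC (pow_pos W0 5).le], v₀ '' J, fun c => ?_, ?_⟩
  · have := (countable_of_injective_of_countable_image inj c).measure_zero MeasureTheory.volume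
    rw [hJ, Real.volume_Icc, ENNReal.ofReal_eq_zero] at this
    linarith
  rintro _ ⟨w, hw, rfl⟩
  obtain ⟨a1, a2⟩ := l1 w
  have sU : ∀ t : ℝ, |t - w| ≤ 3 / 16 * W₁ → ball (t : ℂ) (3 / 400 * W₁) ⊆ Ud W₁ := fun t ht => by
    refine ball_subset_ball' ?_
    rw [dist_eq_norm, show (t : ℂ) - 2 * W₁ = ((t - 2 * W₁ : ℝ) : ℂ) by push_cast; ring, norm_real,
      Real.norm_eq_abs]
    linarith [abs_sub_le t w (2 * W₁), mJ w hw]
  have tc : ∀ n, X.Gd (u n) W₁ → u n * v n w ∈ Ioo 0 X.u₀ ∧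
      X.η (u n * v n w) ≤ W₁ ^ 5 * X.η (u n) := fun n k => by
    have u0 := k.u0
    have q := abs_le.1 ((abs_sub_le (v n w) w (2 * W₁)).trans (add_le_add (v1 n w) (mJ w hw)))
    have q1 := mul_le_mul_of_nonneg_left q.1 u0.le
    have q2 := mul_le_mul_of_nonneg_left q.2 u0.le
    have uW := mul_pos W0 u0
    exact ⟨⟨by linarith, by linarith [k.hi]⟩, k.eta _ (abs_lt.2 ⟨by linarith, by linarith⟩)⟩
  obtain ⟨p, ⟨p0, p1⟩, lp⟩ := wr_lim 𝒰 (f := fun n => X.pw (u n) (v n w)) (a := 0) (b := W₁ ^ 5)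
    (G.mono fun n k => ⟨div_nonneg (F.nn _ (tc n k).1) k.e0.le,
      (div_le_iff₀ k.e0).2 (tc n k).2⟩)
  set sl : ℕ → ℝ := fun n => H.slp X.η (W₁ ^ 5 * X.η (u n)) (3 / 4 * W₁ * u n) (u n * w)
    (u n * v n w) with hsl
  set b : ℕ → ℝ := fun n => max (-(48 * W₁ ^ 4)) (min (48 * W₁ ^ 4) (sl n * u n / X.η (u n)))
    with hb
  have bI : ∀ n, b n ∈ Icc (-(48 * W₁ ^ 4)) (48 * W₁ ^ 4) := fun n =>
    ⟨le_max_left _ _, max_le (by linarith) (min_le_left _ _)⟩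
  obtain ⟨b₀, -, lb⟩ := wr_lim 𝒰 (Eventually.of_forall bI)
  refine ⟨by linarith [hw.1], by linarith [hw.2], sU _ (abs_le.2 ⟨by linarith, by linarith⟩),
    fun n => v n w, b, p, b₀, l2 w, lp, by linarith, fun k Z Z₀ Dp => ?_⟩
  refine loc_of HP (Z := Z) (by positivity) (by positivity) m4 (fun n => abs_le.2 (bI n)) (l2 w)
    lp.neg lb (by nlinarith) (by positivity) (by linarith) ?_ fun q hq => ?_
  · filter_upwards [G, Dp.tr] with n k' d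
    have u0 := k'.u0
    have e0 := k'.e0
    have T := v2 n w k' (mJ w hw)
    obtain ⟨Z', z1, z2⟩ := CO _ _ _ _ _ _ _ _ _ _ _ _ _ _ _ _ _ _ X.dat.cur F
      (DD.apr_of k' w3 d.1 d.2.1 d.2.2) ((cJ n u0 w hw).trans (by
        linarith [mul_pos W0 u0])) T
    have be : b n * X.η (u n) = sl n * u n := by
      have := abs_le.1 (PA _ _ _ _ _ (by positivity) (F.nn _ (tc n k').1) (tc n k').2 T).1
      rw [show 16 * (W₁ ^ 5 * X.η (u n)) / (3 / 4 * W₁ * u n) =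
        64 / 3 * W₁ ^ 4 * X.η (u n) / u n by field_simp; ring, ← neg_div, div_le_iff₀ u0,
        le_div_iff₀ u0] at this
      have c := mul_pos (pow_pos W0 4) e0
      simp only [hb]
      rw [min_eq_right ((div_le_iff₀ e0).2 (by linarith [this.2])),
        max_eq_right ((le_div_iff₀ e0).2 (by linarith [this.1])), div_mul_cancel₀ _ e0.ne']
    have mp := fun q (hq : q ∈ Wd k (W₁ ^ 6) (2 * W₁ ^ 5) (3 / 400 * W₁) (512 / 9 * W₁ ^ 3)
        (48 * W₁ ^ 4) (v n w) (-X.pw (u n) (v n w)) (b n)) =>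
      DD.wd_cd (s := s n) (B := X.r - 2 * (W₁ ^ 5 * X.η (u n)))
        (K' := 32 * (W₁ ^ 5 * X.η (u n)) / (3 / 4 * W₁ * u n) ^ 2)
        (C' := 36 * (W₁ ^ 5 * X.η (u n)) / (3 / 4 * W₁ * u n)) (σ := 3 / 4 * W₁ * u n / 2)
        u0 e0 rfl (by ring) be (by field_simp; ring) (by field_simp; ring)
        (by linarith [mul_pos W0 u0]) hq
    refine ⟨fun z hz => ?_, _, DD.tru_of u0 e0 (tc n k').1 mp z1, fun q hq h => ⟨?_, d.2.1 q
      ⟨sU _ (v1 n w) hq.1, by linarith [(abs_lt.1 hq.2.1).1], by linarith [(abs_lt.1 hq.2.1).2],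
        ?_, by linarith⟩⟩⟩
    · have := (le_abs_self _).trans_lt (show |(X.wy (u n) (s n) z).im| < X.r from hz)
      rw [DD.wy_im] at this
      exact neg_of_mul_neg_left (by linarith) e0.le
    · rw [z2 _ (mp q hq) (by simp only [DD.ta, DD.wy_im]; nlinarith), DD.tw_ta u0 e0, DD.zw_wy e0]
    · have : 2 * W₁ ^ 5 ≤ X.r / (2 * X.η (u n)) := by
        rw [le_div_iff₀ (by positivity)]; nlinarith [k'.dr, mul_pos (pow_pos W0 5) e0]
      linarith [hq.2.2.1]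
  · exact Dp.cc q ⟨sU _ (abs_le.2 ⟨by linarith, by linarith⟩) hq.1, by linarith [hq.2.1],
      by linarith [hq.2.2.1], by linarith [hq.2.2.2.2]⟩ _ tendsto_const_nhds

end Vale.Agent.P097F
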