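import Vale.Agent.P097F.H.All0
import Vale.Agent.P097F.H.Sep
import Vale.Agent.P097F.H.Hp2
import Vale.Agent.P097F.H.Wrap

/-!
# P097F, block H: closed
-/

set_option linter.all false

namespace Vale.Agent.P097F.H

theorem sepC : Spec_SEP := sep cbC strC raise

theorem specH : P097F.Spec_H := specH_of tchC par coneC sepC hp2

end Vale.Agent.P097F.H
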