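import Vale.Agent.P097F.H.Defs

/-! # P097F.H: the strip and the unit disc -/

set_option linter.all false

noncomputable section

namespace Vale.Agent.P097F.H

open Filter Topology Set Metric Complex Vale.Agent.P097T

theorem cay_lt {e : ℂ} (h : 0 < e.re) : e + 1 ≠ 0 ∧ ‖(e - 1) / (e + 1)‖ < 1 := by
  have n : e + 1 ≠ 0 := fun k => by
    have := congrArg re k
    simp at this
    linarith
  refine ⟨n, ?_⟩
  rw [norm_div, div_lt_one (norm_pos_iff.2 n), ← sq_lt_sq₀ (norm_nonneg _) (norm_nonneg _),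
    ← normSq_eq_norm_sq, ← normSq_eq_norm_sq, normSq_apply, normSq_apply]
  simp
  nlinarith

theorem cay_re {z : ℂ} (h : ‖z‖ < 1) : 1 - z ≠ 0 ∧ 0 < ((1 + z) / (1 - z)).re := by
  have n : 1 - z ≠ 0 := fun k => by
    rw [← sub_eq_zero.1 k] at h
    simp at h
  refine ⟨n, ?_⟩
  have h1 : normSq z < 1 := by
    rw [normSq_eq_norm_sq]; nlinarith [norm_nonneg z]
  have h2 := normSq_pos.2 n
  rw [div_re, ← add_div]
  refine div_pos ?_ h2
  rw [normSq_apply] at h1
  simp
  nlinarith

theorem cayS : S_CAY := by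
  intro r r0
  have p0 := Real.pi_pos
  have rc : (r : ℂ) ≠ 0 := ofReal_ne_zero.2 r0.ne'
  have pc : (Real.pi : ℂ) ≠ 0 := ofReal_ne_zero.2 p0.ne'
  refine ⟨fun y hy => ?_, fun z hz => ?_⟩
  · have hy : |y.im| < r := hy
    have e1 : (Real.pi * y / (2 * r) : ℂ).im = Real.pi / 2 * (y.im / r) := by
      rw [show (Real.pi * y / (2 * r) : ℂ) = ((Real.pi / (2 * r) : ℝ) : ℂ) * y by
        push_cast; ring, im_ofReal_mul]
      ring
    have e2 : |y.im / r| < 1 := by rwa [abs_div, abs_of_pos r0, div_lt_one r0]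
    rw [abs_lt] at e2
    have i1 : -(Real.pi / 2) < (Real.pi * y / (2 * r) : ℂ).im := by rw [e1]; nlinarith
    have i2 : (Real.pi * y / (2 * r) : ℂ).im < Real.pi / 2 := by rw [e1]; nlinarith
    have re0 : 0 < (exp (Real.pi * y / (2 * r))).re := by
      rw [exp_re]
      exact mul_pos (Real.exp_pos _) (Real.cos_pos_of_mem_Ioo ⟨i1, i2⟩)
    obtain ⟨n, lt⟩ := cay_lt re0
    have a : AnalyticAt ℂ (fun y : ℂ => exp (Real.pi * y / (2 * r))) y := by fun_prop
    refine ⟨(a.sub analyticAt_const).div (a.add analyticAt_const) n, lt, ?_⟩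
    have e3 : (1 + cay r y) / (1 - cay r y) = exp (Real.pi * y / (2 * r)) := by
      rw [cay]
      generalize exp (Real.pi * y / (2 * r)) = e at n
      rw [show 1 + (e - 1) / (e + 1) = 2 * e / (e + 1) by field_simp; ring,
        show 1 - (e - 1) / (e + 1) = 2 / (e + 1) by field_simp; ring]
      field_simp
    rw [yac, e3, log_exp (by linarith) (by linarith)]
    field_simp
  · obtain ⟨n, p⟩ := cay_re hz
    have a : AnalyticAt ℂ (fun z : ℂ => (1 + z) / (1 - z)) z :=
      (analyticAt_const.add analyticAt_id).div (analyticAt_const.sub analyticAt_id) n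
    refine ⟨analyticAt_const.mul (a.clog (Or.inl p)), ?_⟩
    show |(yac r z).im| < r
    have k := abs_arg_lt_pi_div_two_iff.2 (Or.inl p)
    rw [yac, show (2 * r / Real.pi : ℂ) = ((2 * r / Real.pi : ℝ) : ℂ) by push_cast; ring,
      im_ofReal_mul, log_im, abs_mul, abs_of_pos (by positivity)]
    calc _ < 2 * r / Real.pi * (Real.pi / 2) := by gcongr
      _ = r := by field_simp

end Vale.Agent.P097F.H
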