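import Vale.Agent.P097F.H.Defs

/-! # P097F.H: the coefficient bounds of an a priori chart -/

set_option linter.all false

noncomputable section

namespace Vale.Agent.P097F.H

open Filter Topology Set Metric Complex Vale.Agent.P097T Vale.Agent.P097Top
open Vale.Agent.P097N (co)

theorem cb_of (C : S_CAY) {r R : ℝ} {Z : ℂ × ℂ → ℂ} {G : ℂ → ℂ} {x₀ w : ℂ} (r0 : 0 < r)
    (R0 : 0 < R) (d : DifferentiableOn ℂ G (ball x₀ R)) (m : ∀ x ∈ ball x₀ R, G x ∈ Strip r)
    (e : ∀ᶠ x in 𝓝 x₀, G x = Z (x, w)) (k n : ℕ) :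
    ‖co (fun q => cay r (Z q) ^ k) x₀ w n‖ * R ^ n ≤ 1 := by
  refine (P097N.sext (fun q => cay r (Z q) ^ k) x₀ w R 1 R0).2 (fun x => cay r (G x) ^ k) ?_ ?_ ?_ n
  · intro x hx
    exact ((((C r r0).1 _ (m x hx)).1.differentiableAt.comp_differentiableWithinAt x
      (d x hx)).pow k)
  · intro x hx
    rw [norm_pow]
    exact pow_le_one₀ (norm_nonneg _) ((C r r0).1 _ (m x hx)).2.1.le
  · filter_upwards [e] with x hx
    rw [hx]

theorem cb (C : S_CAY) : S_CB := by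
  intro r κ u₀ θ H Y₀ η Y s L M u₁ ρ Z F A
  have M0 := A.M0
  have Mr := A.Mr
  have r0 : 0 < r := by linarith
  have um : ∀ u : ℝ, |u - u₁| < 2 * ρ → u ∈ Ioo 0 u₀ := fun u hu => by
    have := abs_lt.mp hu
    exact ⟨by linarith [A.lo], by linarith [A.hi]⟩
  have ub : ∀ u : ℝ, |u - u₁| < 2 * ρ → (u : ℂ) ∈ ball (u₁ : ℂ) (2 * ρ) := fun u hu => by
    rw [mem_ball, dist_eq_norm, ← ofReal_sub, norm_real, Real.norm_eq_abs]
    exact hu
  have bb : ∀ x₀ : ℂ, x₀.im = (⟨s, r - 2 * M⟩ : ℂ).im → |x₀.re - (⟨s, r - 2 * M⟩ : ℂ).re| < L →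
      ∀ x ∈ ball x₀ M, x ∈ Bx ⟨s, r - 2 * M⟩ (L + M) M := fun x₀ a b x hx => by
    rw [mem_ball, dist_eq_norm] at hx
    have k1 := abs_lt.mp ((abs_im_le_norm _).trans_lt hx)
    have k2 := abs_lt.mp ((abs_re_le_norm _).trans_lt hx)
    have k3 := abs_lt.mp b
    simp only [sub_im, sub_re] at k1 k2 k3 a
    exact ⟨abs_lt.mpr ⟨by simp only; linarith [k2.1, k3.1], by simp only; linarith [k2.2, k3.2]⟩,
      abs_lt.mpr ⟨by simp only; linarith [k1.1], by simp only; linarith [k1.2]⟩⟩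
  have third : ∀ u : ℝ, |u - u₁| < 2 * ρ → ∀ x ∈ Bx ⟨s, r - 2 * M⟩ (L + M) M,
      Z =ᶠ[𝓝 (x, (u : ℂ))] Y u := fun u hu => by
    have L0 : 0 ≤ L := by linarith [A.wd, A.lo, A.ρ0]
    refine P097S.Lp.spread (bx_convex _ _ _).isPreconnected (x₀ := ⟨s, r - 2 * M⟩)
      ⟨by rw [sub_self, abs_zero]; linarith, by rw [sub_self, abs_zero]; exact M0⟩
      (fun x hx => ⟨A.an _ ⟨hx, ub u hu⟩, F.an u (um u hu) x ?_⟩) (A.eq u hu)
    have k := abs_lt.mp hx.2
    have e := A.eta u hu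
    simp only at k
    show |x.im| < r - η u
    exact abs_lt.mpr ⟨by linarith [k.1], by linarith [k.2]⟩
  refine ⟨fun w hw x₀ k n a b => ?_, fun u hu x₀ k n a b => ?_, third⟩
  · refine cb_of C r0 M0 (G := fun x => Z (x, w)) (fun x hx => ?_)
      (fun x hx => A.mem ⟨bb x₀ a b x hx, hw⟩) (Eventually.of_forall fun x => rfl) k n
    exact (AnalyticAt.comp (g := Z) (f := fun x : ℂ => (x, w)) (A.an _ ⟨bb x₀ a b x hx, hw⟩)
      (analyticAt_id.prod analyticAt_const)).differentiableAt.differentiableWithinAt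
  · have e := A.eta u hu
    have n0 := F.nn u (um u hu)
    have Lf := F.leaf u (um u hu)
    have sb : ∀ x ∈ ball x₀ (2 * M - η u), x ∈ Strip (r - η u) := fun x hx => by
      rw [mem_ball, dist_eq_norm] at hx
      have k1 := abs_lt.mp ((abs_im_le_norm _).trans_lt hx)
      simp only [sub_im] at k1 a
      show |x.im| < r - η u
      exact abs_lt.mpr ⟨by linarith [k1.1], by linarith [k1.2]⟩
    refine cb_of C r0 (by linarith) (G := fun x => Y u (x, u)) (Lf.d.mono sb)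
      (fun x hx => Lf.mem x (sb x hx)) ?_ k n
    have g := third u hu x₀ (bb x₀ a b x₀ (mem_ball_self M0))
    exact ((Continuous.prodMk_left (u : ℂ)).tendsto x₀).eventually g.symm

end Vale.Agent.P097F.H
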