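import Vale.Agent.P097F.H.Defs

/-!
# P097F, block H: the cone at a touching point
-/

set_option linter.all false

noncomputable section

namespace Vale.Agent.P097F.H

open Filter Topology Set Metric Complex Vale.Agent.P097T Vale.Agent.P097Top

namespace Cn1

theorem cd_open (s L B T u b K C σ : ℝ) : IsOpen (CD s L B T u b K C σ) := by
  have h1 : IsOpen {q : ℂ × ℂ | |q.1.re - s| < L} := isOpen_lt (by fun_prop) continuous_const
  have h2 : IsOpen {q : ℂ × ℂ | B < q.1.im} := isOpen_lt continuous_const (by fun_prop)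
  have h3 : IsOpen {q : ℂ × ℂ |
      q.1.im < T - b * (q.2.re - u) - K * (q.2.re - u) ^ 2 - C * |q.2.im|} :=
    isOpen_lt (by fun_prop) (by fun_prop)
  have h4 : IsOpen {q : ℂ × ℂ | ‖q.2 - u‖ < σ} := isOpen_lt (by fun_prop) continuous_const
  exact h1.inter (h2.inter (h3.inter h4))

theorem cd_convex (s L B T u b : ℝ) {K C : ℝ} (σ : ℝ) (hK : 0 ≤ K) (hC : 0 ≤ C) :
    Convex ℝ (CD s L B T u b K C σ) := by
  rintro p ⟨p1, p2, p3, p4⟩ q ⟨q1, q2, q3, q4⟩ a e a0 e0 ae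
  have s1 : ∀ {x y z : ℝ}, x < z → y < z → a * x + e * y < z := fun {x y z} hx hy => by
    have := (convex_Iio z) (show x ∈ Iio z from hx) (show y ∈ Iio z from hy) a0 e0 ae
    simpa using this
  have ab : ∀ x y : ℝ, |a * x + e * y| ≤ a * |x| + e * |y| := fun x y =>
    (abs_add_le _ _).trans (by rw [abs_mul, abs_mul, abs_of_nonneg a0, abs_of_nonneg e0])
  have e1 : e = 1 - a := by linarith
  refine ⟨?_, ?_, ?_, ?_⟩
  · have : (a • p + e • q).1.re - s = a * (p.1.re - s) + e * (q.1.re - s) := by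
      simp
      rw [e1]; ring
    rw [this]
    exact (ab _ _).trans_lt (s1 p1 q1)
  · have : (a • p + e • q).1.im = a * p.1.im + e * q.1.im := by simp
    rw [this]
    have := s1 (neg_lt_neg p2) (neg_lt_neg q2)
    linarith
  · have h1 : (a • p + e • q).1.im = a * p.1.im + e * q.1.im := by simp
    have h2 : (a • p + e • q).2.re - u = a * (p.2.re - u) + e * (q.2.re - u) := by
      simp
      rw [e1]; ring
    have h3 : (a • p + e • q).2.im = a * p.2.im + e * q.2.im := by simp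
    rw [h1, h2, h3]
    have k1 := s1 (x := p.1.im + b * (p.2.re - u) + K * (p.2.re - u) ^ 2 + C * |p.2.im|)
      (y := q.1.im + b * (q.2.re - u) + K * (q.2.re - u) ^ 2 + C * |q.2.im|) (z := T)
      (by linarith) (by linarith)
    have k2 := mul_le_mul_of_nonneg_left (ab p.2.im q.2.im) hC
    have k3 : (a * (p.2.re - u) + e * (q.2.re - u)) ^ 2 ≤
        a * (p.2.re - u) ^ 2 + e * (q.2.re - u) ^ 2 := by
      have := mul_nonneg (mul_nonneg a0 e0) (sq_nonneg ((p.2.re - u) - (q.2.re - u)))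
      rw [e1] at this ⊢
      nlinarith
    have k4 := mul_le_mul_of_nonneg_left k3 hK
    nlinarith
  · have := (convex_ball (u : ℂ) σ) (mem_ball_iff_norm.2 p4) (mem_ball_iff_norm.2 q4) a0 e0 ae
    exact mem_ball_iff_norm.1 this

/-- the radius below the barrier -/
def rad (R ρ u' : ℝ) (w : ℂ) : ℝ :=
  R * Real.exp (-(16 * ((w.re - u') / ρ) ^ 2) - 17 * (|w.im| / ρ))

variable {r c κ u₀ : ℝ} {θ H Q : ℂ → ℂ} {Y₀ : ℂ × ℂ → ℂ} {η : ℝ → ℝ} {Y : ℝ → ℂ × ℂ → ℂ}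
  {s L M u₁ ρ u' u : ℝ} {Z : ℂ × ℂ → ℂ}

theorem sq_mem (A : Apr r u₀ η Y s L M u₁ ρ Z) (h : |u' - u₁| ≤ ρ / 2) {w : ℂ}
    (h1 : |w.re - u'| ≤ ρ) (h2 : |w.im| ≤ ρ) : w ∈ ball (u₁ : ℂ) (2 * ρ) := by
  have ρ0 := A.ρ0
  rw [mem_ball_iff_norm, ← sq_lt_sq₀ (norm_nonneg _) (by positivity), Complex.sq_norm,
    normSq_apply]
  simp only [sub_re, ofReal_re, sub_im, ofReal_im, sub_zero]
  have k1 := abs_le.1 h
  have k2 := abs_le.1 h1
  have k3 := abs_le.1 h2
  nlinarith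

theorem ioo (A : Apr r u₀ η Y s L M u₁ ρ Z) {v : ℝ} (h : |v - u₁| < 2 * ρ) : v ∈ Ioo 0 u₀ :=
  ⟨by linarith [(abs_lt.1 h).1, A.lo], by linarith [(abs_lt.1 h).2, A.hi]⟩

theorem key (hY : S_CAY) (hC : S_CB) (hM : S_MAX) (F : Fam r κ u₀ θ H Y₀ η Y)
    (A : Apr r u₀ η Y s L M u₁ ρ Z) (h : |u' - u₁| ≤ ρ / 2) (T : Tch η M ρ u' u) {w : ℂ}
    (h1 : |w.re - u'| ≤ ρ) (h2 : |w.im| ≤ ρ) :
    Cb (fun q => cay r (Z q)) ⟨s, r - 2 * M⟩ L w
      (rad ((2 * M - η u) * Real.exp (16 * ((u - u') / ρ) ^ 2)) ρ u' w) := by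
  have ρ0 := A.ρ0
  have M0 := A.M0
  have r0 : 0 < r := by linarith [A.Mr]
  obtain ⟨c1, c2, -⟩ := hC r κ u₀ θ H Y₀ η Y s L M u₁ ρ Z F A
  have nr : ∀ v : ℝ, |v - u'| ≤ ρ → |v - u₁| < 2 * ρ := fun v hv => by
    have := abs_sub_le v u' u₁
    linarith
  have eu := A.eta u (nr u (T.1.trans (by linarith)))
  set R := (2 * M - η u) * Real.exp (16 * ((u - u') / ρ) ^ 2) with hR
  have R0 : 0 < R := mul_pos (by linarith) (Real.exp_pos _)
  have R2 : R ≤ 2 * M := by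
    have k := T.2 u' (by simpa using ρ0.le)
    have k0 := F.nn u' (ioo A (nr u' (by simpa using ρ0.le)))
    simp only [sub_self, zero_div, ne_eq, OfNat.ofNat_ne_zero, not_false_eq_true, zero_pow,
      mul_zero, Real.exp_zero, mul_one] at k
    linarith
  have dF : DifferentiableOn ℂ (fun q => cay r (Z q))
      (Bx ⟨s, r - 2 * M⟩ L M ×ˢ ball (u₁ : ℂ) (2 * ρ)) := fun q hq => by
    have m : q ∈ Bx ⟨s, r - 2 * M⟩ (L + M) M ×ˢ ball (u₁ : ℂ) (2 * ρ) :=
      ⟨⟨hq.1.1.trans (by linarith), hq.1.2⟩, hq.2⟩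
    exact (((hY r r0).1 _ (A.mem m)).1.comp (A.an q m)).differentiableAt.differentiableWithinAt
  have bd : ∀ z : ℂ, |z.re - u'| ≤ ρ → |z.im| ≤ ρ → |z.re - u'| = ρ ∨ |z.im| = ρ ∨ z.im = 0 →
      Cb (fun q => cay r (Z q)) ⟨s, r - 2 * M⟩ L z (Real.exp (Real.log R -
        16 * (((z.re - u') / ρ) ^ 2 - (z.im / ρ) ^ 2) - 17 * (|z.im| / ρ))) := by
    intro z z1 z2 z3
    have b1 : |z.im| / ρ ≤ 1 := (div_le_one ρ0).2 z2
    have b0 : 0 ≤ |z.im| / ρ := by positivity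
    have b2 : (z.im / ρ) ^ 2 = (|z.im| / ρ) ^ 2 := by rw [div_pow, div_pow, sq_abs]
    have a2 : ((z.re - u') / ρ) ^ 2 = (|z.re - u'| / ρ) ^ 2 := by rw [div_pow, div_pow, sq_abs]
    have far : 16 * (((z.re - u') / ρ) ^ 2 - (z.im / ρ) ^ 2) + 17 * (|z.im| / ρ) ≥ 1 →
        Cb (fun q => cay r (Z q)) ⟨s, r - 2 * M⟩ L z (Real.exp (Real.log R -
        16 * (((z.re - u') / ρ) ^ 2 - (z.im / ρ) ^ 2) - 17 * (|z.im| / ρ))) := fun k => by
      refine (c1 z (sq_mem A h z1 z2)).mono (Real.exp_pos _).le ?_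
      refine (Real.exp_le_exp.2 (show _ ≤ Real.log R - 1 by linarith)).trans ?_
      rw [Real.exp_sub, Real.exp_log R0, div_le_iff₀ (Real.exp_pos _)]
      nlinarith [Real.add_one_le_exp (1 : ℝ)]
    rcases z3 with k | k | k
    · refine far ?_
      rw [a2, b2, k, div_self ρ0.ne']
      nlinarith
    · refine far ?_
      rw [b2, k, div_self ρ0.ne']
      nlinarith [sq_nonneg ((z.re - u') / ρ)]
    · have e : z = (z.re : ℝ) := Complex.ext rfl (by simpa using k)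
      have k1 := c2 z.re (nr _ z1)
      rw [← e] at k1
      refine k1.mono (Real.exp_pos _).le ?_
      rw [k]
      simp only [zero_div, ne_eq, OfNat.ofNat_ne_zero, not_false_eq_true, zero_pow, sub_zero,
        abs_zero, mul_zero]
      rw [Real.exp_sub, Real.exp_log R0, div_le_iff₀ (Real.exp_pos _)]
      exact T.2 _ z1
  have ps : ∀ (e : ℝ) (z : ℂ), ((Real.log R : ℂ) - 16 * ((z - u') / ρ) ^ 2 +
      e * I * 17 * ((z - u') / ρ)).re = Real.log R -
        16 * (((z.re - u') / ρ) ^ 2 - (z.im / ρ) ^ 2) - 17 * (e * z.im / ρ) := fun e z => by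
    have x1 : ((z - u') / ρ).re = (z.re - u') / ρ := by simp
    have x2 : ((z - u') / ρ).im = z.im / ρ := by simp
    generalize (z - u') / ρ = t at x1 x2
    simp only [add_re, sub_re, ofReal_re, mul_re, re_ofNat, im_ofNat, zero_mul, sub_zero, sq,
      I_re, mul_zero, ofReal_im, I_im, mul_one, mul_im, add_zero, zero_add, x1, x2]
    ring
  have fin : ∀ t : ℝ, t = |w.im| → Cb (fun q => cay r (Z q)) ⟨s, r - 2 * M⟩ L w
      (Real.exp (Real.log R - 16 * (((w.re - u') / ρ) ^ 2 - (w.im / ρ) ^ 2) - 17 * (t / ρ))) →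
      Cb (fun q => cay r (Z q)) ⟨s, r - 2 * M⟩ L w (rad R ρ u' w) := fun t ht k => by
    refine k.mono (mul_pos R0 (Real.exp_pos _)).le ?_
    rw [rad, ← Real.exp_log R0, ← Real.exp_add, Real.exp_log R0, ht]
    exact Real.exp_le_exp.2 (by nlinarith [sq_nonneg (w.im / ρ)])
  have i1 : ∀ z : ℂ, z.re ∈ Icc (u' - ρ) (u' + ρ) → |z.re - u'| ≤ ρ := fun z hz =>
    abs_le.2 ⟨by linarith [hz.1], by linarith [hz.2]⟩
  have i2 : ∀ z : ℂ, z.re = u' - ρ ∨ z.re = u' + ρ → |z.re - u'| = ρ := fun z hz => by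
    rcases hz with k | k <;> simp [k, abs_of_pos ρ0]
  have w1 : w.re ∈ Icc (u' - ρ) (u' + ρ) :=
    ⟨by linarith [(abs_le.1 h1).1], by linarith [(abs_le.1 h1).2]⟩
  rcases le_total 0 w.im with k | k
  · have := hM _ ⟨s, r - 2 * M⟩ L M (u' - ρ) (u' + ρ) 0 ρ _ (fun z => (Real.log R : ℂ) -
      16 * ((z - u') / ρ) ^ 2 + (1 : ℝ) * I * 17 * ((z - u') / ρ)) M0 isOpen_ball (by linarith) ρ0
      dF (fun z z1 z2 => ⟨sq_mem A h (i1 z z1) (abs_le.2 ⟨by linarith [z2.1], z2.2⟩), by fun_prop⟩)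
      (fun z z1 z2 z3 => by
        rw [ps, one_mul]
        have := bd z (i1 z z1) (abs_le.2 ⟨by linarith [z2.1], z2.2⟩) (by
          rcases z3 with j | j | j | j
          · exact .inl (i2 z (.inl j))
          · exact .inl (i2 z (.inr j))
          · exact .inr (.inr j)
          · exact .inr (.inl (by rw [j, abs_of_pos ρ0])))
        rwa [abs_of_nonneg z2.1] at this) w w1 ⟨k, (abs_le.1 h2).2⟩
    rw [ps, one_mul] at this
    exact fin _ (abs_of_nonneg k).symm this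
  · have := hM _ ⟨s, r - 2 * M⟩ L M (u' - ρ) (u' + ρ) (-ρ) 0 _ (fun z => (Real.log R : ℂ) -
      16 * ((z - u') / ρ) ^ 2 + (-1 : ℝ) * I * 17 * ((z - u') / ρ)) M0 isOpen_ball (by linarith)
      (by linarith) dF
      (fun z z1 z2 => ⟨sq_mem A h (i1 z z1) (abs_le.2 ⟨z2.1, by linarith [z2.2]⟩), by fun_prop⟩)
      (fun z z1 z2 z3 => by
        rw [ps, neg_one_mul]
        have := bd z (i1 z z1) (abs_le.2 ⟨z2.1, by linarith [z2.2]⟩) (by
          rcases z3 with j | j | j | j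
          · exact .inl (i2 z (.inl j))
          · exact .inl (i2 z (.inr j))
          · exact .inr (.inl (by rw [j, abs_neg, abs_of_pos ρ0]))
          · exact .inr (.inr j))
        rwa [abs_of_nonpos z2.2] at this) w w1 ⟨(abs_le.1 h2).1, k⟩
    rw [ps, neg_one_mul] at this
    exact fin _ (abs_of_nonpos k).symm this

/-- the radius lies above the cone -/
theorem rad_ge (ρ0 : 0 < ρ) (e0 : 0 ≤ η u) (e1 : η u ≤ M) (w : ℂ) :
    2 * M - η u - slp η M ρ u' u * (w.re - u) - 32 * M / ρ ^ 2 * (w.re - u) ^ 2 -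
      36 * M / ρ * |w.im| ≤ rad ((2 * M - η u) * Real.exp (16 * ((u - u') / ρ) ^ 2)) ρ u' w := by
  rw [rad, mul_assoc, ← Real.exp_add]
  refine le_trans ?_ (mul_le_mul_of_nonneg_left (Real.add_one_le_exp _) (by linarith))
  have k1 : slp η M ρ u' u * (w.re - u) =
      (2 * M - η u) * (32 * ((u - u') / ρ) * ((w.re - u) / ρ)) := by
    rw [slp]; field_simp
  have k2 : 32 * M / ρ ^ 2 * (w.re - u) ^ 2 = 32 * M * ((w.re - u) / ρ) ^ 2 := by field_simp
  have k3 : 36 * M / ρ * |w.im| = 36 * M * (|w.im| / ρ) := by field_simp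
  have k4 : (w.re - u') / ρ = (w.re - u) / ρ + (u - u') / ρ := by field_simp; ring
  have b0 : 0 ≤ |w.im| / ρ := by positivity
  rw [k1, k2, k3, k4]
  generalize (w.re - u) / ρ = a
  generalize (u - u') / ρ = t
  generalize |w.im| / ρ = b at b0
  nlinarith [mul_nonneg e0 (sq_nonneg a), mul_nonneg e0 b0, mul_nonneg (e0.trans e1) b0]

end Cn1

open Cn1 in
theorem cone (hY : S_CAY) (hS : S_STR) (hC : S_CB) (hM : S_MAX) (hT : S_TRU) (hP : Spec_PAR) :
    Spec_CONE := by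
  intro r c κ u₀ θ H Q Y₀ η Y s L M u₁ ρ u' u Z C F A h T
  have ρ0 := A.ρ0
  have M0 := A.M0
  have Mr := A.Mr
  have r0 : 0 < r := by linarith
  have nr : ∀ v : ℝ, |v - u'| ≤ ρ → |v - u₁| < 2 * ρ := fun v hv => by
    have := abs_sub_le v u' u₁
    linarith
  have un := nr u (T.1.trans (by linarith))
  have e1 := A.eta u un
  have um := ioo A un
  have e0 := F.nn u um
  have in1 : ∀ w : ℂ, ‖w - u‖ < ρ / 2 → |w.re - u'| ≤ ρ ∧ |w.im| ≤ ρ := fun w hw => by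
    have k1 := (abs_re_le_norm _).trans_lt hw
    have k2 := (abs_im_le_norm _).trans_lt hw
    simp only [sub_re, ofReal_re, sub_im, ofReal_im, sub_zero] at k1 k2
    have := abs_sub_le w.re u u'
    exact ⟨by linarith [T.1], by linarith⟩
  have sb : Bx ⟨s, r - 2 * M⟩ L M ×ˢ ball (u : ℂ) (ρ / 2) ⊆
      Bx ⟨s, r - 2 * M⟩ (L + M) M ×ˢ ball (u₁ : ℂ) (2 * ρ) := fun q hq =>
    ⟨⟨hq.1.1.trans (by linarith), hq.1.2⟩, sq_mem A h (in1 _ (mem_ball_iff_norm.1 hq.2)).1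
      (in1 _ (mem_ball_iff_norm.1 hq.2)).2⟩
  obtain ⟨G, g1, g2⟩ := hS Z ⟨s, r - 2 * M⟩ r L M (ball (u : ℂ) (ρ / 2))
    (rad ((2 * M - η u) * Real.exp (16 * ((u - u') / ρ) ^ 2)) ρ u') r0 M0 isOpen_ball
    (by unfold rad; fun_prop)
    (fun w => mul_pos (mul_pos (by linarith) (Real.exp_pos _)) (Real.exp_pos _))
    (A.an.mono sb) (fun q hq => A.mem (sb hq)) fun w hw =>
      key hY hC hM F A h T (in1 _ (mem_ball_iff_norm.1 hw)).1 (in1 _ (mem_ball_iff_norm.1 hw)).2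
  set D := CD s L (r - 2 * M) (r - η u) u (slp η M ρ u' u) (32 * M / ρ ^ 2) (36 * M / ρ) (ρ / 2)
    with hD
  have sD : ∀ q ∈ D, q.2 ∈ ball (u : ℂ) (ρ / 2) ∧ q.1 ∈ Bx ⟨s, r - 2 * M⟩ L
      (rad ((2 * M - η u) * Real.exp (16 * ((u - u') / ρ) ^ 2)) ρ u' q.2) := by
    rintro q ⟨q1, q2, q3, q4⟩
    refine ⟨mem_ball_iff_norm.2 q4, q1, ?_⟩
    have := rad_ge (u' := u') ρ0 e0 e1 q.2
    show |q.1.im - (r - 2 * M)| < _
    rw [abs_of_pos (by linarith)]
    linarith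
  have eZ : ∀ q ∈ D, q.1.im < r - M → G q = Z q := fun q hq k =>
    (g2 q (sD q hq).1 (sD q hq).2).2 (by
      show |q.1.im - (r - 2 * M)| < M
      rw [abs_of_pos (by linarith [hq.2.1])]
      linarith)
  have oD : IsOpen D := cd_open _ _ _ _ _ _ _ _ _
  have uL : u < L := by linarith [(abs_lt.1 un).2, A.wd, A.lo]
  have pt : ∀ t : ℝ, |t| < L → (((⟨s, r - 3 * M / 2⟩ : ℂ) + t, (u : ℂ)) : ℂ × ℂ) ∈ D := fun t ht =>
    ⟨by simpa using ht, by simp; linarith, by simp; linarith, by simpa using ρ0⟩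
  refine ⟨G, hT r c κ u₀ θ H Q Y₀ η Y D G ⟨s, r - 3 * M / 2⟩ u C F oD
    (cd_convex _ _ _ _ _ _ _ (by positivity) (by positivity)) (fun q hq => g1 q (sD q hq))
    (fun q hq => (g2 q (sD q hq).1 (sD q hq).2).1) (fun x v hx => ?_) ?_ ?_ ?_, eZ⟩
  · obtain ⟨x1, x2, x3, x4⟩ := hx
    simp only [ofReal_re, ofReal_im, abs_zero, mul_zero, sub_zero] at x1 x2 x3 x4
    have v1 : |v - u'| ≤ ρ := by simpa using (in1 v x4).1
    have p := (hP η M ρ u' u ρ0 e0 e1 T).2 v v1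
    have ev := A.eta v (nr v v1)
    refine ⟨ioo A (nr v v1), ?_, ⟨x.re, min x.im (r - 3 * M / 2)⟩, ?_, ?_⟩
    · show |x.im| < r - η v
      rw [abs_of_pos (by linarith)]
      linarith
    · refine ⟨x1, lt_min x2 (by linarith), ?_, x4⟩
      simp only [ofReal_re, ofReal_im, abs_zero, mul_zero, sub_zero]
      exact (min_le_left _ _).trans_lt x3
    · have m : (((⟨x.re, min x.im (r - 3 * M / 2)⟩ : ℂ), (v : ℂ)) : ℂ × ℂ) ∈ D := by
        refine ⟨x1, lt_min x2 (by linarith), ?_, x4⟩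
        simp only [ofReal_re, ofReal_im, abs_zero, mul_zero, sub_zero]
        exact (min_le_left _ _).trans_lt x3
      have l1 : min x.im (r - 3 * M / 2) < r - M := (min_le_right _ _).trans_lt (by linarith)
      have l2 : r - 2 * M < min x.im (r - 3 * M / 2) := lt_min x2 (by linarith)
      refine EventuallyEq.trans ?_ ((hC r κ u₀ θ H Y₀ η Y s L M u₁ ρ Z F A).2.2 v (nr v v1) _
        ⟨x1.trans (by linarith), by
          show |min x.im (r - 3 * M / 2) - (r - 2 * M)| < M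
          rw [abs_of_pos (by linarith)]
          linarith⟩)
      filter_upwards [oD.mem_nhds m, (continuous_im.comp continuous_fst).continuousAt.eventually
        (gt_mem_nhds (show (im ∘ Prod.fst) (((⟨x.re, min x.im (r - 3 * M / 2)⟩ : ℂ), (v : ℂ)) :
          ℂ × ℂ) < r - M from l1))] with q q1 q2
      exact eZ q q1 q2
  · have := pt (-u) (by rwa [abs_neg, abs_of_pos um.1])
    rwa [ofReal_neg, ← sub_eq_add_neg] at this
  · simpa using pt 0 (by simpa using um.1.trans uL)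
  · exact pt u (by rwa [abs_of_pos um.1])

end Vale.Agent.P097F.H
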