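import Vale.Agent.P097F.H.Defs
import Vale.Agent.P097N.Ser

/-!
# P097F, block H: summation of the Taylor series at the centres on a segment
-/

set_option linter.all false

noncomputable section

namespace Vale.Agent.P097F.H

open Filter Topology Set Metric Complex
open Vale.Agent.P097N (co)

namespace HullA

/-- the Taylor series at `s` -/
def ts (F : ℂ × ℂ → ℂ) (s : ℂ) (p : ℂ × ℂ) : ℂ := ∑' n, co F s p.2 n * (p.1 - s) ^ n

/-- the centres -/
def Ce (c : ℂ) (L : ℝ) (s : ℂ) : Prop := s.im = c.im ∧ |s.re - c.re| < L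

/-- the standing hypotheses -/
structure Hy (F : ℂ × ℂ → ℂ) (c : ℂ) (L m : ℝ) (V : Set ℂ) (ρ : ℂ → ℝ) : Prop where
  m0 : 0 < m
  op : IsOpen V
  ct : Continuous ρ
  ps : ∀ w, 0 < ρ w
  df : DifferentiableOn ℂ F (Bx c L m ×ˢ V)
  bd : ∀ w ∈ V, ∀ s, Ce c L s → ∀ n : ℕ, ‖co F s w n‖ * ρ w ^ n ≤ 1

variable {F : ℂ × ℂ → ℂ} {c s s' : ℂ} {L m : ℝ} {V : Set ℂ} {ρ : ℂ → ℝ}

theorem ce_mem (hs : Ce c L s) (hm : 0 < m) : s ∈ Bx c L m :=
  ⟨hs.2, by rw [hs.1, sub_self, abs_zero]; exact hm⟩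

theorem term_le (h : Hy F c L m V ρ) (hs : Ce c L s) {p : ℂ × ℂ} (hp : p.2 ∈ V) {q : ℝ}
    (hq : ‖p.1 - s‖ ≤ q * ρ p.2) (n : ℕ) : ‖co F s p.2 n * (p.1 - s) ^ n‖ ≤ q ^ n := by
  have hq0 : 0 ≤ q := nonneg_of_mul_nonneg_left ((norm_nonneg _).trans hq) (h.ps _)
  rw [norm_mul, norm_pow]
  refine (mul_le_mul_of_nonneg_left (pow_le_pow_left₀ (norm_nonneg _) hq n)
    (norm_nonneg _)).trans ?_
  rw [mul_pow, mul_comm (q ^ n), ← mul_assoc]
  exact mul_le_of_le_one_left (by positivity) (h.bd _ hp s hs n)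

theorem ts_diff (h : Hy F c L m V ρ) (hs : Ce c L s) {p : ℂ × ℂ} (hp : p.2 ∈ V)
    (hq : ‖p.1 - s‖ < ρ p.2) : DifferentiableAt ℂ (ts F s) p := by
  obtain ⟨q, h1, h2⟩ := exists_between ((div_lt_one (h.ps p.2)).2 hq)
  have hq0 : 0 ≤ q := (div_nonneg (norm_nonneg _) (h.ps _).le).trans h1.le
  let U : Set (ℂ × ℂ) := {p | p.2 ∈ V ∧ ‖p.1 - s‖ < q * ρ p.2}
  have hU : IsOpen U := (h.op.preimage continuous_snd).inter
    (isOpen_lt (by fun_prop) (continuous_const.mul (h.ct.comp continuous_snd)))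
  have hd : ∀ n, DifferentiableOn ℂ (fun p : ℂ × ℂ => co F s p.2 n * (p.1 - s) ^ n) U := by
    intro n
    simp only [co, div_eq_mul_inv]
    refine DifferentiableOn.mul (DifferentiableOn.mul_const ?_ _) (by fun_prop)
    exact (P097N.Ser.diff_iter ((bx_open c L m).prod h.op) n F h.df).comp
      (f := fun p : ℂ × ℂ => (s, p.2)) (by fun_prop) fun p hp => ⟨ce_mem hs h.m0, hp.1⟩
  exact (P097A.Bern.diff_tsum hU (summable_geometric_of_lt_one hq0 h2) hd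
    fun n p hp => term_le h hs hp.1 hp.2.le n).differentiableAt
    (hU.mem_nhds ⟨hp, (div_lt_iff₀ (h.ps _)).1 h1⟩)

theorem ts_an (h : Hy F c L m V ρ) (hs : Ce c L s) {w : ℂ} (hw : w ∈ V) :
    AnalyticOnNhd ℂ (fun x => ts F s (x, w)) (ball s (ρ w)) :=
  DifferentiableOn.analyticOnNhd (fun x hx =>
    ((ts_diff h hs (p := (x, w)) hw (mem_ball_iff_norm.1 hx)).comp x
      (f := fun x : ℂ => (x, w)) (by fun_prop)).differentiableWithinAt) isOpen_ball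

theorem ts_eq (h : Hy F c L m V ρ) (hs : Ce c L s) {w : ℂ} (hw : w ∈ V) :
    EqOn (fun x => ts F s (x, w)) (fun x => F (x, w)) (ball s (ρ w) ∩ Bx c L m) := by
  have hFw : DifferentiableOn ℂ (fun x => F (x, w)) (Bx c L m) :=
    h.df.comp (f := fun x : ℂ => (x, w)) (by fun_prop) fun x hx => ⟨hx, hw⟩
  obtain ⟨η, hη, hsub⟩ := Metric.isOpen_iff.1 (bx_open c L m) s (ce_mem hs h.m0)
  refine AnalyticOnNhd.eqOn_of_preconnected_of_eventuallyEq
    ((ts_an h hs hw).mono inter_subset_left)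
    ((hFw.analyticOnNhd (bx_open c L m)).mono inter_subset_right)
    ((convex_ball _ _).inter (bx_convex c L m)).isPreconnected
    ⟨mem_ball_self (h.ps w), ce_mem hs h.m0⟩ ?_
  filter_upwards [ball_mem_nhds s hη] with x hx
  rw [← (Complex.hasSum_taylorSeries_on_ball (hFw.mono hsub) hx).tsum_eq]
  refine tsum_congr fun n => ?_
  simp only [co, smul_eq_mul]
  ring

theorem ts_eq_ts (h : Hy F c L m V ρ) (hs : Ce c L s) (hs' : Ce c L s') {p : ℂ × ℂ} (hw : p.2 ∈ V)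
    (h1 : ‖p.1 - s‖ < ρ p.2) (h2 : ‖p.1 - s'‖ < ρ p.2) : ts F s p = ts F s' p := by
  have h3 : ‖s - s'‖ < 2 * ρ p.2 := by
    have : s - s' = (p.1 - s') - (p.1 - s) := by ring
    rw [this]
    exact (norm_sub_le _ _).trans_lt (by linarith)
  have hm : (s + s') / 2 ∈ ball s (ρ p.2) ∩ ball s' (ρ p.2) := by
    have e1 : (s + s') / 2 - s = -(s - s') / 2 := by ring
    have e2 : (s + s') / 2 - s' = (s - s') / 2 := by ring
    constructor <;> rw [mem_ball_iff_norm]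
    · rw [e1, norm_div, norm_neg, Complex.norm_ofNat]
      linarith
    · rw [e2, norm_div, Complex.norm_ofNat]
      linarith
  have hb : (s + s') / 2 ∈ Bx c L m := by
    have := (bx_convex c L m) (ce_mem hs h.m0) (ce_mem hs' h.m0) (a := 1 / 2) (b := 1 / 2)
      (by norm_num) (by norm_num) (by norm_num)
    have e : (1 / 2 : ℝ) • s + (1 / 2 : ℝ) • s' = (s + s') / 2 := by
      rw [real_smul, real_smul]
      push_cast
      ring
    rwa [e] at this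
  refine AnalyticOnNhd.eqOn_of_preconnected_of_eventuallyEq
    ((ts_an h hs hw).mono inter_subset_left) ((ts_an h hs' hw).mono inter_subset_right)
    ((convex_ball _ _).inter (convex_ball _ _)).isPreconnected hm ?_
    ⟨mem_ball_iff_norm.2 h1, mem_ball_iff_norm.2 h2⟩
  filter_upwards [(isOpen_ball.inter isOpen_ball).mem_nhds hm, (bx_open c L m).mem_nhds hb]
    with x hx hx'
  exact (ts_eq h hs hw ⟨hx.1, hx'⟩).trans (ts_eq h hs' hw ⟨hx.2, hx'⟩).symm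

theorem ts_le (h : Hy F c L m V ρ) (hs : Ce c L s) {p : ℂ × ℂ} (hw : p.2 ∈ V)
    (h1 : ‖p.1 - s‖ < ρ p.2) : ‖ts F s p‖ ≤ (1 - ‖p.1 - s‖ / ρ p.2)⁻¹ := by
  have hq0 : 0 ≤ ‖p.1 - s‖ / ρ p.2 := div_nonneg (norm_nonneg _) (h.ps _).le
  have hq1 : ‖p.1 - s‖ / ρ p.2 < 1 := (div_lt_one (h.ps _)).2 h1
  refine tsum_of_norm_bounded (hasSum_geometric_of_lt_one hq0 hq1) fun n => term_le h hs hw ?_ n
  rw [div_mul_cancel₀ _ (h.ps _).ne']

theorem ts_pow (h : Hy F c L m V ρ) (k : ℕ) (hk : Hy (fun q => F q ^ k) c L m V ρ) (hs : Ce c L s)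
    {p : ℂ × ℂ} (hw : p.2 ∈ V) (h1 : ‖p.1 - s‖ < ρ p.2) :
    ts F s p ^ k = ts (fun q => F q ^ k) s p := by
  refine AnalyticOnNhd.eqOn_of_preconnected_of_eventuallyEq ((ts_an h hs hw).pow k) (ts_an hk hs hw)
    (convex_ball _ _).isPreconnected (mem_ball_self (h.ps _)) ?_ (mem_ball_iff_norm.2 h1)
  filter_upwards [ball_mem_nhds s (h.ps p.2), (bx_open c L m).mem_nhds (ce_mem hs h.m0)]
    with x hx hx'
  have e1 : ts F s (x, p.2) = F (x, p.2) := ts_eq h hs hw ⟨hx, hx'⟩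
  have e2 : ts (fun q => F q ^ k) s (x, p.2) = F (x, p.2) ^ k := ts_eq hk hs hw ⟨hx, hx'⟩
  show ts F s (x, p.2) ^ k = ts (fun q => F q ^ k) s (x, p.2)
  rw [e1, e2]

/-- the foot of a point on the segment -/
def ft (c x : ℂ) : ℂ := ⟨x.re, c.im⟩

theorem norm_ft (c x : ℂ) : ‖x - ft c x‖ = |x.im - c.im| := by
  have : x - ft c x = ((x.im - c.im : ℝ) : ℂ) * I := by
    apply Complex.ext <;> simp [ft]
  rw [this, norm_mul, norm_I, mul_one, norm_real, Real.norm_eq_abs]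

end HullA

open HullA in
theorem hull : S_HULL := by
  intro F c L m V ρ hm hV hc hρ hF hb
  have hk : ∀ k : ℕ, Hy (fun q => F q ^ k) c L m V ρ := fun k =>
    ⟨hm, hV, hc, hρ, hF.pow k, fun w hw s hs n => hb w hw s k n hs.1 hs.2⟩
  have h : Hy F c L m V ρ := by simpa only [pow_one] using hk 1
  have ce : ∀ {x : ℂ} {a : ℝ}, x ∈ Bx c L a → Ce c L (ft c x) := fun hx => ⟨rfl, hx.1⟩
  have nf : ∀ {x : ℂ} {a : ℝ}, x ∈ Bx c L a → ‖x - ft c x‖ < a := fun hx => by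
    rw [norm_ft]
    exact hx.2
  refine ⟨fun p => ts F (ft c p.1) p, fun p hp => ?_, fun p h1 h2 => ⟨?_, fun h3 => ?_⟩⟩
  · refine ((ts_diff h (ce hp.2) hp.1 (nf hp.2)).congr_of_eventuallyEq ?_).differentiableWithinAt
    have c1 : Continuous fun q : ℂ × ℂ => |q.1.re - c.re| := by fun_prop
    have c2 : Continuous fun q : ℂ × ℂ => |q.1.im - c.im| := by fun_prop
    have c3 : Continuous fun q : ℂ × ℂ => ‖q.1 - ft c p.1‖ := by fun_prop
    have ho : IsOpen {q : ℂ × ℂ | q.2 ∈ V ∧ |q.1.re - c.re| < L ∧ |q.1.im - c.im| < ρ q.2 ∧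
        ‖q.1 - ft c p.1‖ < ρ q.2} :=
      (hV.preimage continuous_snd).inter ((isOpen_lt c1 continuous_const).inter
        ((isOpen_lt c2 (hc.comp continuous_snd)).inter (isOpen_lt c3 (hc.comp continuous_snd))))
    filter_upwards [ho.mem_nhds ⟨hp.1, hp.2.1, hp.2.2, nf hp.2⟩] with q hq
    have m : q.1 ∈ Bx c L (ρ q.2) := ⟨hq.2.1, hq.2.2.1⟩
    exact ts_eq_ts h (ce m) (ce hp.2) hq.1 (nf m) hq.2.2.2
  · refine le_of_not_gt fun hg => ?_
    obtain ⟨k, hk'⟩ := pow_unbounded_of_one_lt (1 - ‖p.1 - ft c p.1‖ / ρ p.2)⁻¹ hg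
    have := ts_le (hk k) (ce h2) h1 (nf h2)
    rw [← ts_pow h k (hk k) (ce h2) h1 (nf h2), norm_pow] at this
    exact absurd hk' (not_lt.2 this)
  · exact ts_eq h (ce h2) h1 ⟨mem_ball_iff_norm.2 (nf h2), h2.1, h3⟩

end Vale.Agent.P097F.H
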