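import Vale.Agent.P097F.H.Defs
import Vale.Agent.P097N.Coef

/-!
# P097F.H: maximum modulus for the coefficients on a rectangle
-/

noncomputable section

namespace Vale.Agent.P097F.H

open Set Complex
open Vale.Agent.P097N (co)

theorem max : S_MAX := by
  intro F c L m x₁ x₂ y₁ y₂ V ψ hm hV hx hy hF hin fr w w1 w2 x₀ k n h1 h2
  have e : ∀ z, ‖co (fun q => F q ^ k) x₀ z n * exp (n * ψ z)‖ =
      ‖co (fun q => F q ^ k) x₀ z n‖ * Real.exp (ψ z).re ^ n := by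
    intro z
    rw [norm_mul, exp_nat_mul, norm_pow, norm_exp]
  have hx₀ : x₀ ∈ Bx c L m := ⟨h2, by rw [h1, sub_self, abs_zero]; exact hm⟩
  have d0 := P097N.Coef.co_diff (bx_open c L m) hV hx₀ (hF.pow k) n
  have cl : closure (Ioo x₁ x₂ ×ℂ Ioo y₁ y₂) = Icc x₁ x₂ ×ℂ Icc y₁ y₂ := by
    rw [closure_reProdIm, closure_Ioo hx.ne, closure_Ioo hy.ne]
  have d : DifferentiableOn ℂ (fun z => co (fun q => F q ^ k) x₀ z n * exp (n * ψ z))
      (closure (Ioo x₁ x₂ ×ℂ Ioo y₁ y₂)) := by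
    rw [cl]
    intro z hz
    obtain ⟨a, b⟩ := hin z hz.1 hz.2
    exact ((d0.differentiableAt (hV.mem_nhds a)).mul (b.const_mul _).cexp).differentiableWithinAt
  rw [← e]
  refine norm_le_of_forall_mem_frontier_norm_le
    ((Metric.isBounded_Ioo x₁ x₂).reProdIm (Metric.isBounded_Ioo y₁ y₂)) d.diffContOnCl
    (fun z hz => ?_) (by rw [cl]; exact ⟨w1, w2⟩)
  have hz' : z ∈ Icc x₁ x₂ ×ℂ Icc y₁ y₂ := cl ▸ frontier_subset_closure hz
  rw [e]
  refine fr z hz'.1 hz'.2 ?_ x₀ k n h1 h2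
  rw [frontier_reProdIm, frontier_Ioo hx, frontier_Ioo hy] at hz
  rcases hz with h | h
  · rcases h.2 with h | h
    · exact Or.inr (Or.inr (Or.inl h))
    · exact Or.inr (Or.inr (Or.inr h))
  · rcases h.1 with h | h
    · exact Or.inl h
    · exact Or.inr (Or.inl h)

end Vale.Agent.P097F.H
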