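import Vale.Agent.P097F.H.Defs

/-!
# P097F, block H: a product chart bounds the loss
-/

set_option linter.all false

noncomputable section

namespace Vale.Agent.P097F.H

open Filter Topology Set Metric Complex Vale.Agent.P097 Vale.Agent.P097T Vale.Agent.P097Top EB EA

open P097S P097S.Lp in
theorem raise : S_RAISE := by
  intro r κ u₀ θ H Y₀ η Y c x₀ L m σ u Z F hu σ0 hL an mem x0 x1 e
  by_contra k
  push Not at k
  have u0 := hu.1
  set T := r - η u with hT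
  have k1 : c.im - m < T := by
    have h1 : |x₀.im| < T := x1
    linarith [(abs_lt.1 x0.2).1, (abs_lt.1 h1).2]
  obtain ⟨ρ, ρ0, r1, r2, r3, r4⟩ : ∃ ρ : ℝ, 0 < ρ ∧ ρ ≤ u ∧ ρ ≤ σ ∧ 2 * ρ ≤ c.im + m - T ∧
      2 * ρ ≤ T - (c.im - m) :=
    ⟨min (min u σ) (min ((c.im + m - T) / 2) ((T - (c.im - m)) / 2)),
      lt_min (lt_min u0 σ0) (lt_min (by linarith) (by linarith)),
      (min_le_left _ _).trans (min_le_left _ _), (min_le_left _ _).trans (min_le_right _ _),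
      (le_div_iff₀' two_pos).1 ((min_le_right _ _).trans (min_le_left _ _)),
      (le_div_iff₀' two_pos).1 ((min_le_right _ _).trans (min_le_right _ _))⟩
  have b : ∀ {x y : ℂ}, x ∈ ball y ρ → |x.re - y.re| < ρ ∧ |x.im - y.im| < ρ := fun hx => by
    rw [mem_ball, dist_eq_norm] at hx
    exact ⟨by simpa using (abs_re_le_norm _).trans_lt hx,
      by simpa using (abs_im_le_norm _).trans_lt hx⟩
  have m0 : ∀ x ∈ ball (⟨c.re, T⟩ : ℂ) ρ, x ∈ Bx c L m := fun x hx => by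
    obtain ⟨h1, h2⟩ := b hx
    rw [abs_lt] at h1 h2
    simp only at h1 h2
    exact ⟨abs_lt.2 ⟨by linarith, by linarith⟩, abs_lt.2 ⟨by linarith, by linarith⟩⟩
  have m1 : ∀ x ∈ ball (⟨c.re, T⟩ : ℂ) ρ, ∀ w ∈ ball (u : ℂ) ρ, x + w ∈ Bx c L m :=
    fun x hx w hw => by
    obtain ⟨h1, h2⟩ := b hx
    obtain ⟨h3, h4⟩ := b hw
    rw [abs_lt] at h1 h2 h3 h4
    simp only [ofReal_re, ofReal_im] at h1 h2 h3 h4
    refine ⟨abs_lt.2 ⟨?_, ?_⟩, abs_lt.2 ⟨?_, ?_⟩⟩ <;> simp only [add_re, add_im] <;> linarith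
  have wm : ∀ w ∈ ball (u : ℂ) ρ, w ∈ ball (u : ℂ) σ := fun w hw => ball_subset_ball r2 hw
  have um := mem_ball_self (x := (u : ℂ)) ρ0
  have g1 := spread (F := Z) (G := Y u) (w := u)
    ((bx_convex c L m).inter (Leaf.convex_strip T)).isPreconnected
    ⟨x0, x1⟩ (fun x hx => ⟨an _ ⟨hx.1, wm _ um⟩, F.an u hu x hx.2⟩) e
  exact F.up u hu ⟨c.re, T⟩ ρ Z (fun q => Z (q.1 + q.2, q.2)) rfl ρ0
    (fun q hq => an _ ⟨m0 _ hq.1, wm _ hq.2⟩)
    (fun q hq => AnalyticAt.comp (g := Z) (f := fun q : ℂ × ℂ => (q.1 + q.2, q.2))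
      (an _ ⟨m1 _ hq.1 _ hq.2, wm _ hq.2⟩)
      ((analyticAt_fst.add analyticAt_snd).prod analyticAt_snd))
    (fun q hq => mem ⟨m0 _ hq.1, wm _ hq.2⟩)
    (fun q hq => mem ⟨m1 _ hq.1 _ hq.2, wm _ hq.2⟩)
    fun x hx => ⟨g1 x ⟨m0 x hx.1, hx.2⟩, (Continuous.tendsto
      (f := fun q : ℂ × ℂ => (q.1 + q.2, q.2)) (by fun_prop) (x, (u : ℂ))).eventually
        (g1 (x + u) ⟨m1 x hx.1 _ um, by simpa [Strip] using hx.2⟩)⟩

end Vale.Agent.P097F.H
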