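import Vale.Agent.P097F.H.Defs
import Vale.Agent.P097.H407.Hol

/-!
# P097F, block H: summation of the Taylor series for maps into a strip
-/

set_option linter.all false

noncomputable section

namespace Vale.Agent.P097F.H

open Filter Topology Set Metric Complex Vale.Agent.P097T Vale.Agent.P097Top

theorem str (hC : S_CAY) (hH : S_HULL) : S_STR := by
  intro Z c r L m V ρ hr hm hV hρ hρ0 hZ hmem hCb
  obtain ⟨c1, c2⟩ := hC r hr
  have hF : DifferentiableOn ℂ (fun q => cay r (Z q)) (Bx c L m ×ˢ V) := fun q hq =>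
    ((c1 _ (hmem hq)).1.differentiableAt.comp q (hZ q hq).differentiableAt).differentiableWithinAt
  obtain ⟨G, hG, hb⟩ := hH _ c L m V ρ hm hV hρ hρ0 hF hCb
  have hD : IsOpen {q : ℂ × ℂ | q.2 ∈ V ∧ q.1 ∈ Bx c L (ρ q.2)} :=
    (hV.preimage continuous_snd).inter
      ((isOpen_lt ((continuous_re.comp continuous_fst).sub continuous_const).abs
        continuous_const).inter
      (isOpen_lt ((continuous_im.comp continuous_fst).sub continuous_const).abs
        (hρ.comp continuous_snd)))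
  have hlt : ∀ q : ℂ × ℂ, q.2 ∈ V → q.1 ∈ Bx c L (ρ q.2) → ‖G q‖ < 1 := by
    rintro ⟨x, w⟩ hw hx
    by_contra hn
    have h1 : 1 ≤ ‖G (x, w)‖ := not_lt.1 hn
    have hd : DifferentiableOn ℂ (fun y => G (y, w)) (Bx c L (ρ w)) :=
      hG.comp (differentiableOn_id.prodMk (differentiableOn_const w)) fun y hy => ⟨hw, hy⟩
    have hmax : IsMaxOn (norm ∘ fun y => G (y, w)) (Bx c L (ρ w)) x := fun y hy =>
      (hb (y, w) hw hy).1.trans h1
    have he := Complex.norm_eqOn_of_isPreconnected_of_isMaxOn (bx_convex c L (ρ w)).isPreconnected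
      (bx_open c L (ρ w)) hd hx hmax
    have h0 : |(⟨x.re, c.im⟩ : ℂ).im - c.im| = 0 := by
      show |c.im - c.im| = 0
      rw [sub_self, abs_zero]
    have hx0 : (⟨x.re, c.im⟩ : ℂ) ∈ Bx c L (ρ w) := ⟨hx.1, h0.trans_lt (hρ0 w)⟩
    have hx1 : ((⟨x.re, c.im⟩ : ℂ), w) ∈ Bx c L m ×ˢ V := ⟨⟨hx.1, h0.trans_lt hm⟩, hw⟩
    have h2 : ‖G (⟨x.re, c.im⟩, w)‖ = ‖G (x, w)‖ := he hx0
    have h3 : G (⟨x.re, c.im⟩, w) = cay r (Z (⟨x.re, c.im⟩, w)) :=
      (hb (⟨x.re, c.im⟩, w) hw hx0).2 (h0.trans_lt hm)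
    have h4 := (c1 _ (hmem hx1)).2.1
    rw [← h3, h2] at h4
    exact hn h4
  have hA := P097.Hol.analyticOnNhd_of_differentiableOn hD hG
  refine ⟨fun q => yac r (G q), fun q hq => (c2 _ (hlt q hq.1 hq.2)).1.comp (hA q hq),
    fun q hw hx => ⟨(c2 _ (hlt q hw hx)).2, fun h => ?_⟩⟩
  show yac r (G q) = Z q
  rw [(hb q hw hx).2 h]
  exact (c1 _ (hmem (show q ∈ Bx c L m ×ˢ V from ⟨⟨hx.1, h⟩, hw⟩))).2.2

end Vale.Agent.P097F.H
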