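import Vale.Agent.P097F.H.Defs

/-!
# P097F, block H: touching points and the parabola below them
-/

set_option linter.all false

noncomputable section

namespace Vale.Agent.P097F.H

open Filter Topology Set Metric

theorem tch (hU : S_USC) : Spec_TCH := by
  intro r κ u₀ θ H Y₀ η Y M ρ u' F M0 ρ0 lo hi hM
  let E : ℝ → ℝ := fun v => Real.exp (16 * ((v - u') / ρ) ^ 2)
  have cE : Continuous E := by fun_prop
  have iff : ∀ v : ℝ, v ∈ Icc (u' - ρ) (u' + ρ) ↔ |v - u'| ≤ ρ := fun v => by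
    rw [abs_le, mem_Icc]
    constructor <;> rintro ⟨a, b⟩ <;> constructor <;> linarith
  have m0 : u' ∈ Icc (u' - ρ) (u' + ρ) := ⟨by linarith, by linarith⟩
  have ls : LowerSemicontinuousOn (fun v => (2 * M - η v) * E v) (Icc (u' - ρ) (u' + ρ)) := by
    intro x hx y hy
    have c1 : Continuous fun t : ℝ => (2 * M - t) * E x := by fun_prop
    obtain ⟨t, t1, t2⟩ := (((c1.tendsto (η x)).eventually (lt_mem_nhds hy)).filter_mono
      (nhdsWithin_le_nhds (s := Ioi (η x)))).and self_mem_nhdsWithin |>.exists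
    have c2 : Continuous fun v : ℝ => (2 * M - t) * E v := by fun_prop
    refine Eventually.filter_mono nhdsWithin_le_nhds ?_
    filter_upwards [hU r κ u₀ θ H Y₀ η Y F x ⟨by linarith [hx.1], by linarith [hx.2]⟩ t t2,
      (c2.tendsto x).eventually (lt_mem_nhds t1)] with v v1 v2
    exact v2.trans_le (mul_le_mul_of_nonneg_right (by linarith) (Real.exp_pos _).le)
  obtain ⟨u, hu, hm⟩ := ls.exists_isMinOn ⟨u', m0⟩ isCompact_Icc
  refine ⟨u, ?_, fun v hv => hm ((iff v).2 hv)⟩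
  have h1 : (2 * M - η u) * E u ≤ (2 * M - η u') * E u' := hm m0
  have h2 : E u' = 1 := by simp [E]
  have h3 := F.nn u' ⟨by linarith, by linarith⟩
  have h4 := hM u ((iff u).1 hu)
  have h5 : 16 * ((u - u') / ρ) ^ 2 + 1 ≤ E u := Real.add_one_le_exp _
  have h6 : M * E u ≤ (2 * M - η u) * E u :=
    mul_le_mul_of_nonneg_right (by linarith) (Real.exp_pos _).le
  have h7 : E u ≤ 2 := le_of_mul_le_mul_left (by rw [h2] at h1; linarith) M0
  have h8 : ((u - u') / ρ) ^ 2 ≤ (1 / 4) ^ 2 := by linarith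
  have h9 := abs_le_of_sq_le_sq h8 (by norm_num)
  rw [abs_div, abs_of_pos ρ0, div_le_iff₀ ρ0] at h9
  linarith

theorem par : Spec_PAR := by
  intro η M ρ u' u ρ0 e0 e1 ⟨h1, h2⟩
  have A0 : 0 ≤ 2 * M - η u := by linarith
  have A1 : 2 * M - η u ≤ 2 * M := by linarith
  refine ⟨?_, fun v hv => ?_⟩
  · unfold slp
    rw [abs_div, abs_mul, abs_of_nonneg (by positivity : 0 ≤ 32 * (2 * M - η u)),
      abs_of_pos (by positivity : 0 < ρ ^ 2), div_le_iff₀ (by positivity)]
    calc _ ≤ 32 * (2 * M) * (ρ / 4) := mul_le_mul (by linarith) h1 (abs_nonneg _) (by linarith)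
      _ = _ := by field_simp; ring
  · have k := h2 v hv
    set a := 16 * ((u - u') / ρ) ^ 2 with ha
    set b := 16 * ((v - u') / ρ) ^ 2 with hb
    have k1 : (2 * M - η u) * Real.exp (a - b) ≤ 2 * M - η v := by
      rw [Real.exp_sub, ← mul_div_assoc, div_le_iff₀ (Real.exp_pos b)]
      exact k
    have k2 := mul_le_mul_of_nonneg_left (Real.add_one_le_exp (a - b)) A0
    have k3 : (2 * M - η u) * (b - a) =
        slp η M ρ u' u * (v - u) + (2 * M - η u) * (16 * (v - u) ^ 2 / ρ ^ 2) := by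
      rw [ha, hb]
      unfold slp
      field_simp
      ring
    have k4 : (2 * M - η u) * (16 * (v - u) ^ 2 / ρ ^ 2) ≤ 2 * M * (16 * (v - u) ^ 2 / ρ ^ 2) :=
      mul_le_mul_of_nonneg_right A1 (by positivity)
    have k5 : 2 * M * (16 * (v - u) ^ 2 / ρ ^ 2) = 32 * M / ρ ^ 2 * (v - u) ^ 2 := by ring
    linarith

end Vale.Agent.P097F.H
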