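import Vale.Agent.P097F.H.Defs

/-!
# P097F, block H: germs and the law on a convex domain (row 15108)
-/

set_option linter.all false

noncomputable section

namespace Vale.Agent.P097F.H

open Filter Topology Set Metric Complex Vale.Agent.P097T Vale.Agent.P097Top

theorem tru : S_TRU := by
  intro r c κ u₀ θ H Q Y₀ η Y D Z x₀ u C F hD hc an mem hs h1 h2 h3
  have eq : ∀ (x : ℂ) (v : ℝ), (x, (v : ℂ)) ∈ D → Z =ᶠ[𝓝 (x, (v : ℂ))] Y v := by
    intro x v hx
    obtain ⟨hv, -, x', hx', he⟩ := hs x v hx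
    have cv : Convex ℝ {t : ℂ | (t, (v : ℂ)) ∈ D} := by
      intro a ha b hb s t s0 t0 st
      have := hc ha hb s0 t0 st
      rw [Prod.smul_mk, Prod.smul_mk, Prod.mk_add_mk, ← add_smul, st, one_smul] at this
      exact this
    exact P097S.Lp.spread (K := {t : ℂ | (t, (v : ℂ)) ∈ D}) cv.isPreconnected hx'
      (fun t ht => ⟨an _ ht, F.an v hv t (hs t v ht).2.1⟩) he x hx
  refine ⟨an, mem, eq, fun x w k1 k2 k3 => ?_⟩
  have cv : Convex ℝ {q : ℂ × ℂ | (q.1 - q.2, q.2) ∈ D ∧ q ∈ D ∧ (q.1 + q.2, q.2) ∈ D} := by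
    intro a ha b hb s t s0 t0 st
    refine ⟨?_, hc ha.2.1 hb.2.1 s0 t0 st, ?_⟩
    · have := hc ha.1 hb.1 s0 t0 st
      rw [Prod.smul_mk, Prod.smul_mk, Prod.mk_add_mk, smul_sub, smul_sub] at this
      have e : s • a.1 - s • a.2 + (t • b.1 - t • b.2) =
          (s • a + t • b).1 - (s • a + t • b).2 := by
        simp only [Prod.fst_add, Prod.snd_add, Prod.smul_fst, Prod.smul_snd]
        abel
      rw [e] at this
      exact this
    · have := hc ha.2.2 hb.2.2 s0 t0 st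
      rw [Prod.smul_mk, Prod.smul_mk, Prod.mk_add_mk, smul_add, smul_add] at this
      have e : s • a.1 + s • a.2 + (t • b.1 + t • b.2) =
          (s • a + t • b).1 + (s • a + t • b).2 := by
        simp only [Prod.fst_add, Prod.snd_add, Prod.smul_fst, Prod.smul_snd]
        abel
      rw [e] at this
      exact this
  have aL : AnalyticOnNhd ℂ
      (fun q : ℂ × ℂ => law θ H (Z (q.1 - q.2, q.2)) (Z q) (Z (q.1 + q.2, q.2)))
      {q : ℂ × ℂ | (q.1 - q.2, q.2) ∈ D ∧ q ∈ D ∧ (q.1 + q.2, q.2) ∈ D} := fun q hq =>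
    Germ.an_law C.dθ C.dH
      (AnalyticAt.comp (g := Z) (f := fun q : ℂ × ℂ => (q.1 - q.2, q.2)) (an _ hq.1)
        ((analyticAt_fst.sub analyticAt_snd).prod analyticAt_snd))
      (an _ hq.2.1)
      (AnalyticAt.comp (g := Z) (f := fun q : ℂ × ℂ => (q.1 + q.2, q.2)) (an _ hq.2.2)
        ((analyticAt_fst.add analyticAt_snd).prod analyticAt_snd))
      (mem hq.1) (mem hq.2.1) (mem hq.2.2)
  obtain ⟨hu, hx0, -⟩ := hs x₀ u h2
  have z0 : (fun q : ℂ × ℂ => law θ H (Z (q.1 - q.2, q.2)) (Z q) (Z (q.1 + q.2, q.2))) =ᶠ[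
      𝓝 (x₀, (u : ℂ))] 0 := by
    filter_upwards [F.fe u hu x₀ hx0, eq x₀ u h2,
      (Continuous.tendsto (f := fun q : ℂ × ℂ => (q.1 - q.2, q.2)) (by fun_prop)
        (x₀, (u : ℂ))).eventually (eq (x₀ - u) u h1),
      (Continuous.tendsto (f := fun q : ℂ × ℂ => (q.1 + q.2, q.2)) (by fun_prop)
        (x₀, (u : ℂ))).eventually (eq (x₀ + u) u h3)] with q a b c d
    rw [b, c, d]
    exact a.2
  exact aL.eqOn_zero_of_preconnected_of_eventuallyEq_zero cv.isPreconnected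
    (show (x₀, (u : ℂ)) ∈ _ from ⟨h1, h2, h3⟩) z0 (show (x, w) ∈ _ from ⟨k1, k2, k3⟩)

end Vale.Agent.P097F.H
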