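import Vale.Agent.P097F.H.Defs

/-!
# P097F, block H: the loss is upper semicontinuous
-/

namespace Vale.Agent.P097F.H

open Filter Topology Set Metric Complex Vale.Agent.P097T Vale.Agent.P097Top

theorem usc (hR : S_RAISE) : S_USC := by
  intro r κ u₀ θ H Y₀ η Y h u hu t ht
  have hκ := h.sol.pos
  obtain ⟨t₁, h1, h2⟩ := exists_between (lt_min ht (by linarith [h.low u hu] : η u < r))
  obtain ⟨h2, h3⟩ := lt_min_iff.1 h2
  have hK : IsCompact (Icc (-(3 * u₀)) (3 * u₀) ×ℂ Icc (-(r - t₁)) (r - t₁)) :=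
    isCompact_Icc.reProdIm isCompact_Icc
  have hS : IsOpen (Strip r) := isOpen_lt continuous_im.abs continuous_const
  have e1 : ∀ᶠ w in 𝓝 (u : ℂ), ∀ x ∈ Icc (-(3 * u₀)) (3 * u₀) ×ℂ Icc (-(r - t₁)) (r - t₁),
      AnalyticAt ℂ (Y u) (x, w) ∧ Y u (x, w) ∈ Strip r := by
    refine hK.eventually_forall_of_forall_eventually fun x hx => ?_
    have hx' : x ∈ Strip (r - η u) :=
      lt_of_le_of_lt (abs_le.2 (mem_reProdIm.1 hx).2) (by linarith)
    have a1 := h.an u hu x hx'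
    have a2 := a1.eventually_analyticAt.and
      (a1.continuousAt.eventually (hS.mem_nhds ((h.leaf u hu).mem x hx')))
    exact (continuous_swap.tendsto ((u : ℂ), x)).eventually a2
  obtain ⟨δ, hδ, e1⟩ := Metric.eventually_nhds_iff_ball.1 e1
  have z0 : ∀ a : ℝ, 0 < a → (0 : ℂ) ∈ Strip a := fun a ha => by simpa [Strip] using ha
  have e2 : ∀ᶠ v : ℝ in 𝓝 u, Y₀ =ᶠ[𝓝 ((0 : ℂ), (v : ℂ))] Y u :=
    ((continuous_const.prodMk continuous_ofReal).tendsto u).eventually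
      (h.base u hu 0 (z0 κ hκ)).eventually_nhds
  filter_upwards [e2, isOpen_Ioo.mem_nhds hu, ball_mem_nhds u (half_pos hδ)] with v e2 hv hd
  have k : ∀ q ∈ Bx 0 (3 * u₀) (r - t₁) ×ˢ ball (v : ℂ) (δ / 2),
      AnalyticAt ℂ (Y u) q ∧ Y u q ∈ Strip r := by
    rintro ⟨x, w⟩ ⟨⟨b1, b2⟩, b3⟩
    simp only [zero_re, zero_im, sub_zero] at b1 b2
    refine e1 w ?_ x (mem_reProdIm.2 ⟨abs_le.1 b1.le, abs_le.1 b2.le⟩)
    have b4 : dist (v : ℂ) u < δ / 2 := by rwa [isometry_ofReal.dist_eq]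
    have b5 := dist_triangle w v u
    rw [mem_ball] at b3 ⊢
    linarith
  have := hR r κ u₀ θ H Y₀ η Y 0 0 (3 * u₀) (r - t₁) (δ / 2) v (Y u) h hv (half_pos hδ)
    (by linarith [hv.2]) (fun q hq => (k q hq).1) (fun q hq => (k q hq).2)
    ⟨by simpa using h.pos, by simpa using h3⟩ (z0 _ (by linarith [h.low v hv]))
    (e2.symm.trans (h.base v hv 0 (z0 κ hκ)))
  rw [zero_im] at this
  linarith

end Vale.Agent.P097F.H
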