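import Vale.Agent.P097F.H.Apr
import Vale.Agent.P097F.H.Cay
import Vale.Agent.P097F.H.Cb
import Vale.Agent.P097F.H.Hull
import Vale.Agent.P097F.H.Max
import Vale.Agent.P097F.H.Raise
import Vale.Agent.P097F.H.Str
import Vale.Agent.P097F.H.Tch
import Vale.Agent.P097F.H.Usc
import Vale.Agent.P097F.H.Tru
import Vale.Agent.P097F.H.Cone

/-!
# P097F, block H: the closed statements
-/

set_option linter.all false

namespace Vale.Agent.P097F.H

theorem strC : S_STR := str cayS hull

theorem cbC : S_CB := cb cayS

theorem uscC : S_USC := usc raise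

theorem tchC : Spec_TCH := tch uscC

theorem coneC : Spec_CONE := cone cayS strC cbC max tru par

end Vale.Agent.P097F.H
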