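import Vale.Agent.P097F.H.Defs

/-!
# P097F, block H: the chart on a box
-/

set_option linter.all false

noncomputable section

namespace Vale.Agent.P097F.H

open Filter Topology Set Metric Complex Vale.Agent.P097T Vale.Agent.P097Top
open Vale.Agent.P097S Vale.Agent.P097S.Lp

/-- a chart is the base solution near a low point of its cone -/
theorem ch_low {θ H : ℂ → ℂ} {Y₀ Z : ℂ × ℂ → ℂ} {r κ s a d R : ℝ} {x w : ℂ}
    (ch : Ch θ H Y₀ r κ s a d R Z) (hx : x ∈ Cn r s a d (κ / 4)) (h : x.im < κ / 2)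
    (hw : w ∈ ball (0 : ℂ) R) : Z =ᶠ[𝓝 (x, w)] Y₀ := by
  filter_upwards [((cn_open _ _ _ _ _).prod isOpen_ball).mem_nhds
    (show (x, w) ∈ _ ×ˢ _ from ⟨hx, hw⟩),
    (continuous_im.comp continuous_fst).continuousAt.eventually (gt_mem_nhds
      (show (x, w).1.im < κ / 2 from h))] with q q1 q2
  exact ch.eq _ q1.1 q2 _ q1.2

theorem cn_low {r s a d κ : ℝ} {x : ℂ} (a0 : 0 < a) (κ0 : 0 < κ) (hx : x ∈ Cn r s a d (κ / 4))
    (h : κ / 2 ≤ x.im) : (⟨x.re, 3 * κ / 8⟩ : ℂ) ∈ Cn r s a d (κ / 4) :=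
  ⟨by simp only; linarith, by simp only; linarith [hx.2.1], hx.2.2.trans_le (by
    simp only
    nlinarith)⟩

theorem apr : Spec_APR := by
  intro r κ u₀ θ H Y₀ η Y s L M u₁ ρ a R F a0 a1 M0 Mr ρ0 lo hi wd hR haM hch
  choose! Zs hZ using hch
  have κ0 := F.sol.pos
  have two := F.two
  have bx : ∀ x ∈ Bx ⟨s, r - 2 * M⟩ (L + M) M, |x.re - s| < L + M ∧ κ / 2 ≤ x.im ∧
      x ∈ Cn r x.re a (M / 2) (κ / 4) := fun x hx => by
    have k := abs_lt.1 hx.2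
    simp only at k
    refine ⟨hx.1, by linarith [k.1], by linarith [k.1], by linarith [k.2], ?_⟩
    rw [sub_self, abs_zero]
    exact mul_pos a0 (by linarith [k.2])
  have wb : ∀ w ∈ ball (u₁ : ℂ) (2 * ρ), w ∈ ball (0 : ℂ) R := fun w hw => by
    rw [mem_ball, dist_eq_norm] at hw
    have := norm_le_norm_add_norm_sub' w u₁
    rw [norm_real, Real.norm_of_nonneg (by linarith)] at this
    rw [mem_ball_zero_iff]
    linarith
  have loc : ∀ x ∈ Bx ⟨s, r - 2 * M⟩ (L + M) M, ∀ w ∈ ball (0 : ℂ) R,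
      (fun q : ℂ × ℂ => Zs q.1.re q) =ᶠ[𝓝 (x, w)] Zs x.re := fun x hx w hw => by
    filter_upwards [(((bx_open _ _ _).inter (cn_open _ _ _ _ _)).prod isOpen_ball).mem_nhds
      (show (x, w) ∈ _ ×ˢ _ from ⟨⟨hx, (bx x hx).2.2⟩, hw⟩)] with q hq
    obtain ⟨⟨q1, q2⟩, q3⟩ := hq
    obtain ⟨b1, b2, b3⟩ := bx _ q1
    have c1 := hZ _ b1
    have c2 := hZ _ (bx x hx).1
    have l1 := cn_low a0 κ0 b3 b2
    have l2 := cn_low a0 κ0 q2 b2
    exact (spread (F := Zs q.1.re) (G := Zs x.re) (w := q.2)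
      ((cn_convex _ _ _ _ _).inter (cn_convex _ _ _ _ _)).isPreconnected ⟨l1, l2⟩
      (fun y hy => ⟨ch_an c1 _ ⟨hy.1, q3⟩, ch_an c2 _ ⟨hy.2, q3⟩⟩)
      ((ch_low c1 l1 (by simp only; linarith) q3).trans
        (ch_low c2 l2 (by simp only; linarith) q3).symm) q.1 ⟨b3, q2⟩).eq_of_nhds
  have um : ∀ u : ℝ, |u - u₁| < 2 * ρ → u ∈ Ioo 0 u₀ ∧ u < u₁ + 2 * ρ := fun u hu => by
    have k := abs_lt.1 hu
    exact ⟨⟨by linarith [k.1], by linarith [k.2]⟩, by linarith [k.2]⟩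
  have c0 : (⟨s, r - 2 * M⟩ : ℂ) ∈ Bx ⟨s, r - 2 * M⟩ (L + M) M :=
    ⟨by simp only [sub_self, abs_zero]; linarith, by simpa using M0⟩
  have cs := hZ _ (bx _ c0).1
  have et : ∀ u : ℝ, |u - u₁| < 2 * ρ → η u ≤ M := fun u hu => by
    have := F.chart (um u hu).1 cs a0 a1 (by linarith [(um u hu).2]) (by linarith [(um u hu).2])
    linarith
  refine ⟨fun q => Zs q.1.re q, ⟨M0, Mr, ρ0, lo, hi, wd, fun q hq => ?_, fun q hq => ?_, et,
    fun u hu => ?_⟩, fun q hq => ?_⟩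
  · exact (ch_an (hZ _ (bx _ hq.1).1) _ ⟨(bx _ hq.1).2.2, wb _ hq.2⟩).congr
      (loc _ hq.1 _ (wb _ hq.2)).symm
  · exact ch_mem (hZ _ (bx _ hq.1).1) a1 (by positivity) κ0 (bx _ hq.1).2.2 (wb _ hq.2)
  · have hw : (u : ℂ) ∈ ball (0 : ℂ) R := wb _ (by
      rw [mem_ball, dist_eq_norm, ← ofReal_sub, norm_real]
      exact hu)
    have m := (um u hu).1
    have l1 := cn_low a0 κ0 (bx _ c0).2.2 (bx _ c0).2.1
    have x1 : |(⟨s, 3 * κ / 8⟩ : ℂ).im| < κ := by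
      simp only
      rw [abs_of_pos (by positivity)]
      linarith
    refine (loc _ c0 _ hw).trans (spread (F := Zs s) (G := Y u) (w := u)
      ((cn_convex r s a (M / 2) (κ / 4)).inter (Leaf.convex_strip (r - η u))).isPreconnected
      ⟨l1, lt_of_lt_of_le x1 (by linarith [F.low u m])⟩
      (fun x hx => ⟨ch_an cs _ ⟨hx.1, hw⟩, F.an u m x hx.2⟩)
      ((ch_low cs l1 (by simp only; linarith) hw).trans (F.base u m _ x1)) _
      ⟨(bx _ c0).2.2, ?_⟩)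
    show |r - 2 * M| < r - η u
    rw [abs_of_pos (by linarith)]
    linarith [et u hu]
  · refine ((hZ _ (bx _ hq.1).1).bd _ (bx _ hq.1).2.2 _ (wb _ hq.2)).trans ?_
    gcongr
    exact min_le_left _ _

end Vale.Agent.P097F.H
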