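import Vale.Agent.P167.BVP.Dir

/-!
# P097F/H: tools for the cone (maximum principle, Chebyshev on a circle, one harmonic function)
-/

set_option linter.all false

noncomputable section

namespace Vale.Agent.P097F.H.Cone

open Set Metric Filter Topology Complex InnerProductSpace MeasureTheory
open Real (circleAverage pi_pos)

/-- maximum principle when only the modulus is continuous up to the boundary -/
theorem maxp {U : Set ℂ} (ho : IsOpen U) (hc : IsPreconnected U) (hb : Bornology.IsBounded U)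
    {F : ℂ → ℂ} {N : ℂ → ℝ} {C : ℝ} (dF : DifferentiableOn ℂ F U)
    (cN : ContinuousOn N (closure U)) (e : ∀ z ∈ U, ‖F z‖ = N z)
    (h : ∀ z ∈ frontier U, N z ≤ C) : ∀ z ∈ closure U, N z ≤ C := by
  intro w hw
  obtain ⟨z₀, hz₀, hm⟩ := hb.isCompact_closure.exists_isMaxOn ⟨w, hw⟩ cN
  refine (hm hw).trans ?_
  by_cases hz : z₀ ∈ U
  · have k := Complex.norm_eqOn_of_isPreconnected_of_isMaxOn hc ho dF hz (fun z hz' => by
      show ‖F z‖ ≤ ‖F z₀‖
      rw [e z hz', e z₀ hz]
      exact hm (subset_closure hz'))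
    have k2 : EqOn N (fun _ => N z₀) (closure U) :=
      Set.EqOn.of_subset_closure (s := U) (fun z hz' => by
        have := k hz'
        simp only [Function.comp, Function.const] at this
        rw [← e z hz', this, e z₀ hz]) cN continuousOn_const subset_closure le_rfl
    obtain ⟨p, hp⟩ : (frontier U).Nonempty := nonempty_frontier_iff.2 ⟨⟨z₀, hz⟩, fun e => by
      rw [e] at hb
      exact NormedSpace.unbounded_univ ℂ ℂ hb⟩
    have := k2 (frontier_subset_closure hp)
    simp only at this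
    rw [← this]
    exact h p hp
  · exact h z₀ (by rw [ho.frontier_eq]; exact ⟨hz₀, hz⟩)

/-- the same on the unit disc, for real parts -/
theorem maxd {H : ℂ → ℂ} {v : ℂ → ℝ} {C : ℝ} (dH : DifferentiableOn ℂ H (ball 0 1))
    (cv : ContinuousOn v (closedBall 0 1)) (e : ∀ z ∈ ball (0 : ℂ) 1, (H z).re = v z)
    (h : ∀ z ∈ sphere (0 : ℂ) 1, v z ≤ C) : ∀ z ∈ closedBall (0 : ℂ) 1, v z ≤ C := by
  have hcl : closure (ball (0 : ℂ) 1) = closedBall 0 1 := closure_ball 0 one_ne_zero
  intro z hz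
  have := maxp isOpen_ball (convex_ball (0 : ℂ) 1).isPreconnected isBounded_ball
    (F := fun z => exp (H z)) (N := fun z => Real.exp (v z)) (C := Real.exp C) dH.cexp
    (by rw [hcl]; exact Real.continuous_exp.comp_continuousOn cv)
    (fun z hz => by rw [norm_exp, e z hz])
    (fun z hz => Real.exp_le_exp.2 (h z (by rwa [frontier_ball 0 one_ne_zero] at hz))) z
    (by rwa [hcl])
  exact Real.exp_le_exp.1 this

/-- the covering map -/
def ee (w : ℂ) : ℂ := exp (w * I)

theorem norm_ee (w : ℂ) : ‖ee w‖ = Real.exp (-w.im) := by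
  simp [ee, norm_exp]

theorem ee_re (w : ℂ) : (ee w).re = Real.exp (-w.im) * Real.cos w.re := by
  simp [ee, exp_re]

theorem ee_im (w : ℂ) : (ee w).im = Real.exp (-w.im) * Real.sin w.re := by
  simp [ee, exp_im]

theorem ee_add (w : ℂ) (σ : ℝ) : ee (w + σ * I) = (Real.exp (-σ) : ℝ) * ee w := by
  unfold ee
  rw [add_mul, mul_assoc, I_mul_I, exp_add, mul_comm]
  simp

theorem ee_ball {w : ℂ} (h : 0 < w.im) : ee w ∈ ball (0 : ℂ) 1 := by
  rw [mem_ball_zero_iff, norm_ee]
  exact Real.exp_lt_one_iff.2 (by linarith)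

theorem ee_cball {w : ℂ} (h : 0 ≤ w.im) : ee w ∈ closedBall (0 : ℂ) 1 := by
  rw [mem_closedBall_zero_iff, norm_ee]
  exact Real.exp_le_one_iff.2 (by linarith)

theorem ee_der (w : ℂ) : HasDerivAt ee (ee w * I) w := by
  have := ((hasDerivAt_id w).mul_const I).cexp
  rw [one_mul] at this
  exact this

theorem ee_cont : Continuous ee := by
  unfold ee
  fun_prop

theorem ee_map (R u : ℝ) : circleMap 0 R u = (R : ℝ) * ee u := by
  simp [circleMap, ee]

/-- Chebyshev on a circle -/
theorem cheb {p : ℂ → ℝ} {R A l : ℝ} (hR : 0 ≤ R) (cp : ContinuousOn p (sphere 0 R))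
    (h0 : ∀ z ∈ sphere (0 : ℂ) R, 0 ≤ p z) (hA : circleAverage p 0 R = A) (hl : 0 < l)
    (A0 : 0 < A) :
    volume {u : ℝ | |u| ≤ 1 ∧ l * A ≤ p (circleMap 0 R u)} ≤ ENNReal.ofReal (7 / l) := by
  have m : ∀ u : ℝ, circleMap 0 R u ∈ sphere (0 : ℂ) R := fun u => circleMap_mem_sphere 0 hR u
  have c : Continuous fun u : ℝ => p (circleMap 0 R u) :=
    cp.comp_continuous (continuous_circleMap 0 R) m
  have per : Function.Periodic (fun u : ℝ => p (circleMap 0 R u)) (2 * Real.pi) := fun u => by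
    simp only [periodic_circleMap 0 R u]
  have i1 : ∫ u in (-Real.pi)..Real.pi, p (circleMap 0 R u) = 2 * Real.pi * A := by
    have := per.intervalIntegral_add_eq (-Real.pi) 0
    rw [show -Real.pi + 2 * Real.pi = Real.pi by ring, zero_add] at this
    rw [this, ← hA, Real.circleAverage_def, smul_eq_mul, ← mul_assoc,
      mul_inv_cancel₀ (by positivity), one_mul]
  rw [intervalIntegral.integral_of_le (by linarith [pi_pos])] at i1
  have k := mul_meas_ge_le_integral_of_nonneg (μ := volume.restrict (Ioc (-Real.pi) Real.pi))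
    (f := fun u : ℝ => p (circleMap 0 R u)) (Eventually.of_forall fun u => h0 _ (m u))
    (c.integrableOn_Icc.mono_set Ioc_subset_Icc_self) (l * A)
  rw [i1] at k
  have ms : MeasurableSet {u : ℝ | l * A ≤ p (circleMap 0 R u)} :=
    (isClosed_le continuous_const c).measurableSet
  calc _ ≤ volume ({u : ℝ | l * A ≤ p (circleMap 0 R u)} ∩ Ioc (-Real.pi) Real.pi) :=
        measure_mono fun u hu => ⟨hu.2, by linarith [Real.pi_gt_three, (abs_le.1 hu.1).1],
          by linarith [Real.pi_gt_three, (abs_le.1 hu.1).2]⟩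
    _ = (volume.restrict (Ioc (-Real.pi) Real.pi)) {u : ℝ | l * A ≤ p (circleMap 0 R u)} :=
        (Measure.restrict_apply ms).symm
    _ = ENNReal.ofReal ((volume.restrict (Ioc (-Real.pi) Real.pi)).real
          {u : ℝ | l * A ≤ p (circleMap 0 R u)}) := (ofReal_measureReal (measure_ne_top _ _)).symm
    _ ≤ _ := ENNReal.ofReal_le_ofReal (by
        rw [le_div_iff₀ hl]
        refine le_of_mul_le_mul_right ?_ A0
        nlinarith [Real.pi_lt_d2])

/-- A harmonic function which decreases along radii towards the centre, up to a linear term,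
varies little at the scale `s` near most boundary points. -/
theorem harm {H : ℂ → ℂ} {v : ℂ → ℝ} {K s l : ℝ} (dH : DifferentiableOn ℂ H (ball 0 1))
    (cv : ContinuousOn v (closedBall 0 1)) (hv : HarmonicOnNhd v (ball 0 1))
    (e : ∀ z ∈ ball (0 : ℂ) 1, (H z).re = v z) (K0 : 0 < K) (s0 : 0 < s) (s1 : s ≤ 1 / 2)
    (l1 : 1 ≤ l)
    (h : ∀ σ : ℝ, 0 < σ → σ ≤ 1 → ∀ z ∈ sphere (0 : ℂ) 1,
      v ((Real.exp (-σ) : ℝ) * z) ≤ v z + K * σ) :
    volume {u : ℝ | |u| ≤ 1 ∧ ∃ w : ℂ, ‖w - u‖ ≤ s ∧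
      v (ee (w + (2 * s : ℝ) * I)) < v (ee u) - 18 * l ^ 2 * K * s} ≤
      ENNReal.ofReal (14 / l) := by
  have hcl : closure (ball (0 : ℂ) 1) = closedBall 0 1 := closure_ball 0 one_ne_zero
  have sc : ∀ σ : ℝ, 0 < σ → ∀ z ∈ closedBall (0 : ℂ) 1,
      ((Real.exp (-σ) : ℝ) : ℂ) * z ∈ ball (0 : ℂ) 1 := fun σ h0 z hz => by
    rw [mem_ball_zero_iff, norm_mul, norm_real, Real.norm_of_nonneg (Real.exp_pos _).le]
    have := Real.exp_lt_one_iff.2 (show -σ < 0 by linarith)
    nlinarith [mem_closedBall_zero_iff.1 hz, Real.exp_pos (-σ)]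
  have cs : ∀ σ : ℝ, 0 < σ →
      ContinuousOn (fun z => v ((Real.exp (-σ) : ℝ) * z)) (closedBall 0 1) := fun σ h0 =>
    cv.comp (by fun_prop) fun z hz => ball_subset_closedBall (sc σ h0 z hz)
  have h2 : ∀ σ : ℝ, 0 < σ → σ ≤ 1 → ∀ z ∈ closedBall (0 : ℂ) 1,
      v ((Real.exp (-σ) : ℝ) * z) - v z ≤ K * σ := fun σ h0 h1 =>
    maxd (H := fun z => H ((Real.exp (-σ) : ℝ) * z) - H z)
      ((dH.comp (by fun_prop) fun z hz => sc σ h0 z (ball_subset_closedBall hz)).sub dH)
      ((cs σ h0).sub cv)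
      (fun z hz => by rw [sub_re, e _ (sc σ h0 z (ball_subset_closedBall hz)), e z hz])
      fun z hz => by linarith [h σ h0 h1 z hz]
  have dH' : ∀ z ∈ ball (0 : ℂ) 1, HasDerivAt H (deriv H z) z := fun z hz =>
    (dH.differentiableAt (isOpen_ball.mem_nhds hz)).hasDerivAt
  set P : ℂ → ℂ := fun z => (2 * K : ℝ) + z * deriv H z with hP
  have dP : DifferentiableOn ℂ P (ball 0 1) :=
    (differentiableOn_const _).add (differentiableOn_id.mul (dH.deriv isOpen_ball))
  have rP : ∀ z ∈ ball (0 : ℂ) 1, K ≤ (P z).re := fun z hz => by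
    have d1 : HasDerivAt (fun σ : ℝ => ((Real.exp (-σ) : ℝ) : ℂ) * z) (-z) 0 := by
      have := ((hasDerivAt_neg (0 : ℝ)).exp.ofReal_comp).mul_const z
      simpa using this
    have d2 : HasDerivAt (fun σ : ℝ => (H ((Real.exp (-σ) : ℝ) * z)).re)
        ((deriv H z * -z).re) 0 := by
      have d0 : HasDerivAt H (deriv H z) (((Real.exp (-0) : ℝ) : ℂ) * z) := by
        simpa using dH' z hz
      exact reCLM.hasFDerivAt.comp_hasDerivAt (0 : ℝ) (d0.comp_of_eq (0 : ℝ) d1 rfl)
    have d3 := d2.tendsto_slope_zero_right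
    have d4 : (deriv H z * -z).re ≤ K := by
      refine le_of_tendsto d3 ?_
      filter_upwards [Ioc_mem_nhdsGT one_pos] with σ hσ
      have := h2 σ hσ.1 hσ.2 z (ball_subset_closedBall hz)
      rw [← e z hz, ← e _ (sc σ hσ.1 z (ball_subset_closedBall hz))] at this
      simp only [zero_add, neg_zero, Real.exp_zero, ofReal_one, one_mul, smul_eq_mul]
      rw [inv_mul_le_iff₀ hσ.1]
      linarith
    simp only [hP, add_re, ofReal_re]
    rw [mul_neg, neg_re, mul_comm] at d4
    linarith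
  have σ0 : 0 < 2 * s := by linarith
  set R := Real.exp (-(2 * s)) with hR
  have R0 : 0 < R := Real.exp_pos _
  have R1 : R < 1 := Real.exp_lt_one_iff.2 (by linarith)
  have sb : closedBall (0 : ℂ) R ⊆ ball 0 1 := closedBall_subset_ball R1
  have c1 := cheb (p := fun z => v z + K * (2 * s) - v ((R : ℝ) * z)) (R := 1) (A := K * (2 * s))
    (l := l) zero_le_one
    (((cv.add continuousOn_const).sub (cs _ σ0)).mono sphere_subset_closedBall)
    (fun z hz => by linarith [h _ σ0 (by linarith) z hz]) (by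
      have a1 : circleAverage v 0 1 = v 0 :=
        HarmonicContOnCl.circleAverage_eq (by rw [abs_one]; exact ⟨hv, by rwa [hcl]⟩)
      have a2 : circleAverage v 0 R = v 0 :=
        HarmonicOnNhd.circleAverage_eq (by rw [abs_of_pos R0]; exact hv.mono sb)
      have a3 : circleAverage (fun z => v ((R : ℝ) * z)) 0 1 = circleAverage v 0 R := by
        simp [Real.circleAverage_def, circleMap]
      have i1 : CircleIntegrable v 0 1 :=
        ContinuousOn.circleIntegrable zero_le_one (cv.mono sphere_subset_closedBall)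
      have i2 : CircleIntegrable (fun z => v ((R : ℝ) * z)) 0 1 :=
        ContinuousOn.circleIntegrable zero_le_one ((cs _ σ0).mono sphere_subset_closedBall)
      rw [Real.circleAverage_fun_sub (f₁ := fun z => v z + K * (2 * s))
          (i1.add (circleIntegrable_const _ _ _)) i2,
        Real.circleAverage_fun_add i1 (circleIntegrable_const _ _ _), a1, a3, a2,
        Real.circleAverage_const]
      ring) (by linarith) (by positivity)
  have dS : DifferentiableOn ℂ (fun z => P z ^ (2⁻¹ : ℂ)) (ball 0 1) :=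
    dP.cpow_const fun z hz => Or.inl (K0.trans_le (rP z hz))
  have c2 := cheb (p := fun z => (P z ^ (2⁻¹ : ℂ)).re) (R := R) (A := √(2 * K)) (l := l) R0.le
    (continuous_re.comp_continuousOn (dS.continuousOn.mono (sphere_subset_closedBall.trans sb)))
    (fun z _ => by rw [cpow_inv_two_re]; positivity) (by
      have a1 : circleAverage (fun z => P z ^ (2⁻¹ : ℂ)) 0 R = P 0 ^ (2⁻¹ : ℂ) :=
        DiffContOnCl.circleAverage (by
          rw [abs_of_pos R0]
          exact (dS.mono (by rw [closure_ball 0 R0.ne']; exact sb)).diffContOnCl)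
      have i1 : CircleIntegrable (fun z => P z ^ (2⁻¹ : ℂ)) 0 R :=
        ContinuousOn.circleIntegrable R0.le
          (dS.continuousOn.mono (sphere_subset_closedBall.trans sb))
      have a2 := reCLM.circleAverage_comp_comm i1
      simp only [reCLM_apply, Function.comp_def] at a2
      rw [a2, a1, cpow_inv_two_re]
      simp only [hP, zero_mul, add_zero, ofReal_re, norm_real]
      rw [Real.norm_of_nonneg (by positivity)]
      congr 1
      ring) (by linarith) (by positivity)
  refine (measure_mono (t := {u : ℝ | |u| ≤ 1 ∧ l * (K * (2 * s)) ≤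
      v (circleMap 0 1 u) + K * (2 * s) - v ((R : ℝ) * circleMap 0 1 u)} ∪
      {u : ℝ | |u| ≤ 1 ∧ l * √(2 * K) ≤ (P (circleMap 0 R u) ^ (2⁻¹ : ℂ)).re}) ?_).trans
    ((measure_union_le _ _).trans ((add_le_add c1 c2).trans_eq ?_))
  swap
  · rw [← ENNReal.ofReal_add (by positivity) (by positivity)]
    congr 1
    ring
  rintro u ⟨hu, w, hw, hlt⟩
  by_contra hc
  simp only [mem_union, mem_setOf_eq, hu, true_and, not_or, not_le, ee_map, ofReal_one,
    one_mul] at hc
  obtain ⟨b1, b2⟩ := hc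
  set w₀ : ℂ := u + (2 * s : ℝ) * I with hw₀
  have e0 : ee w₀ = (R : ℝ) * ee u := ee_add _ _
  rw [← e0] at b1 b2
  have b3 : ‖P (ee w₀)‖ ≤ 4 * l ^ 2 * K := by
    rw [cpow_inv_two_re, Real.sqrt_lt' (by positivity), mul_pow,
      Real.sq_sqrt (by positivity)] at b2
    have := rP _ (ee_ball (w := w₀) (by simpa [hw₀] using s0))
    nlinarith
  have up : ∀ ζ ∈ ball (0 : ℂ) (2 * s), 0 < (w₀ + ζ).im := fun ζ hζ => by
    have := (abs_lt.1 ((abs_im_le_norm ζ).trans_lt (mem_ball_zero_iff.1 hζ))).1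
    simp only [hw₀, add_im, ofReal_im, mul_im, ofReal_re, I_im, I_re]
    linarith
  have b4 : ∀ ζ ∈ closedBall (0 : ℂ) s, ‖P (ee (w₀ + ζ))‖ ≤ 2 * K + 12 * l ^ 2 * K := fun ζ hζ => by
    have n1 := mem_closedBall_zero_iff.1 hζ
    have n0 := norm_nonneg ζ
    have := borelCaratheodory (f := fun ζ => -P (ee (w₀ + ζ))) K0
      ((dP.comp (fun ζ _ => (((ee_der _).comp_const_add w₀ ζ).differentiableAt
        ).differentiableWithinAt) fun ζ hζ => ee_ball (up ζ hζ)).neg)
      (fun ζ hζ => by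
        have := rP _ (ee_ball (up ζ hζ))
        show (-P _).re ≤ K
        rw [neg_re]
        linarith) σ0 (z := ζ) (mem_ball_zero_iff.2 (by linarith))
    rw [norm_neg, add_zero, norm_neg] at this
    refine this.trans (add_le_add ?_ ?_)
    · rw [div_le_iff₀ (by linarith)]
      nlinarith
    · rw [div_le_iff₀ (by linarith)]
      have : 0 ≤ 4 * l ^ 2 * K := by positivity
      nlinarith [norm_nonneg (P (ee w₀))]
  have b5 := (convex_closedBall (0 : ℂ) s).norm_image_sub_le_of_norm_hasDerivWithin_le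
    (f := fun ζ => H (ee (w₀ + ζ))) (f' := fun ζ => deriv H (ee (w₀ + ζ)) * (ee (w₀ + ζ) * I))
    (C := 16 * l ^ 2 * K) (x := 0) (y := w - u)
    (fun ζ hζ => ((dH' _ (ee_ball (up ζ (closedBall_subset_ball (by linarith) hζ)))).comp ζ
      ((ee_der _).comp_const_add w₀ ζ)).hasDerivWithinAt)
    (fun ζ hζ => by
      have e1 : deriv H (ee (w₀ + ζ)) * (ee (w₀ + ζ) * I) =
          (P (ee (w₀ + ζ)) - (2 * K : ℝ)) * I := by
        simp only [hP]
        ring
      rw [e1, norm_mul, norm_I, mul_one]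
      refine (norm_sub_le _ _).trans ?_
      rw [norm_real, Real.norm_of_nonneg (by positivity)]
      have : K ≤ l ^ 2 * K := le_mul_of_one_le_left K0.le (one_le_pow₀ l1)
      linarith [b4 ζ hζ])
    (mem_closedBall_self s0.le) (mem_closedBall_zero_iff.2 hw)
  have b6 := (abs_le.1 ((abs_re_le_norm _).trans b5)).1
  have m1 := up (w - u) (mem_ball_zero_iff.2 (by linarith))
  have m0 := up 0 (mem_ball_self σ0)
  rw [sub_re, e _ (ee_ball m1), e _ (ee_ball m0), add_zero, sub_zero,
    show w₀ + (w - u) = w + (2 * s : ℝ) * I by rw [hw₀]; ring] at b6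
  have b7 : 16 * l ^ 2 * K * ‖w - u‖ ≤ 16 * l ^ 2 * K * s := by gcongr
  have b8 : l * (K * s) ≤ l ^ 2 * (K * s) := by
    gcongr
    nlinarith
  nlinarith [mul_pos K0 s0]

end Vale.Agent.P097F.H.Cone
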