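import Vale.Agent.P097F.Fam
import Vale.Agent.P299.H720.Montel

/-!
# P097F, block H: heights of the leaves for complex steps (definitions and statements)

Absolute coordinates, top line `im = r`.  `M` is the a priori depth, `ρ` the unit of the step.
-/

set_option linter.all false

noncomputable section

namespace Vale.Agent.P097F.H

open Filter Topology Set Metric Complex Vale.Agent.P097T Vale.Agent.P097Top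
open Vale.Agent.P097N (co)

/-- the open box with centre `c` -/
def Bx (c : ℂ) (a b : ℝ) : Set ℂ := {x | |x.re - c.re| < a ∧ |x.im - c.im| < b}

/-- INPUT: a chart on a box of depth between `M` and `3 M`, for complex steps -/
structure Apr (r u₀ : ℝ) (η : ℝ → ℝ) (Y : ℝ → ℂ × ℂ → ℂ) (s L M u₁ ρ : ℝ) (Z : ℂ × ℂ → ℂ) :
    Prop where
  M0 : 0 < M
  Mr : 4 * M ≤ r
  ρ0 : 0 < ρ
  lo : 0 ≤ u₁ - 2 * ρ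
  hi : u₁ + 2 * ρ ≤ u₀
  wd : 4 * (u₁ + 2 * ρ) ≤ L
  an : AnalyticOnNhd ℂ Z (Bx ⟨s, r - 2 * M⟩ (L + M) M ×ˢ ball (u₁ : ℂ) (2 * ρ))
  mem : MapsTo Z (Bx ⟨s, r - 2 * M⟩ (L + M) M ×ˢ ball (u₁ : ℂ) (2 * ρ)) (Strip r)
  eta : ∀ u : ℝ, |u - u₁| < 2 * ρ → η u ≤ M
  eq : ∀ u : ℝ, |u - u₁| < 2 * ρ → Z =ᶠ[𝓝 ((⟨s, r - 2 * M⟩ : ℂ), (u : ℂ))] Y u

/-- `u` is a touching point for the centre `u'` -/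
def Tch (η : ℝ → ℝ) (M ρ u' u : ℝ) : Prop := |u - u'| ≤ ρ / 4 ∧ ∀ v : ℝ, |v - u'| ≤ ρ →
  (2 * M - η u) * Real.exp (16 * ((u - u') / ρ) ^ 2) ≤
    (2 * M - η v) * Real.exp (16 * ((v - u') / ρ) ^ 2)

/-- the slope at a touching point -/
def slp (η : ℝ → ℝ) (M ρ u' u : ℝ) : ℝ := 32 * (2 * M - η u) * (u - u') / ρ ^ 2

/-- the convex domain below the cone with vertex height `T` at the step `u` -/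
def CD (s L B T u b K C σ : ℝ) : Set (ℂ × ℂ) := {q | |q.1.re - s| < L ∧ B < q.1.im ∧
  q.1.im < T - b * (q.2.re - u) - K * (q.2.re - u) ^ 2 - C * |q.2.im| ∧ ‖q.2 - u‖ < σ}

/-- OUTPUT: the true leaves on an open set `D` of pairs (point, step) -/
structure Tru (r : ℝ) (θ H : ℂ → ℂ) (Y : ℝ → ℂ × ℂ → ℂ) (D : Set (ℂ × ℂ)) (Z : ℂ × ℂ → ℂ) :
    Prop where
  an : AnalyticOnNhd ℂ Z D
  mem : MapsTo Z D (Strip r)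
  eq : ∀ (x : ℂ) (v : ℝ), (x, (v : ℂ)) ∈ D → Z =ᶠ[𝓝 (x, (v : ℂ))] Y v
  law : ∀ x w : ℂ, (x - w, w) ∈ D → (x, w) ∈ D → (x + w, w) ∈ D →
    law θ H (Z (x - w, w)) (Z (x, w)) (Z (x + w, w)) = 0

/-- **H0**: charts over cones give the chart on the box, with the bound of the charts -/
def Spec_APR : Prop := ∀ (r κ u₀ : ℝ) (θ H : ℂ → ℂ) (Y₀ : ℂ × ℂ → ℂ) (η : ℝ → ℝ)
  (Y : ℝ → ℂ × ℂ → ℂ) (s L M u₁ ρ a R : ℝ), Fam r κ u₀ θ H Y₀ η Y → 0 < a → a ≤ 1 → 0 < M →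
  4 * M ≤ r → 0 < ρ → 0 ≤ u₁ - 2 * ρ → u₁ + 2 * ρ ≤ u₀ → 4 * (u₁ + 2 * ρ) ≤ L →
  2 * (u₁ + 2 * ρ) ≤ R → 6 * (u₁ + 2 * ρ) ≤ a * M →
  (∀ s' : ℝ, |s' - s| < L + M → ∃ Z, P097S.Ch θ H Y₀ r κ s' a (M / 2) R Z) →
  ∃ Z, Apr r u₀ η Y s L M u₁ ρ Z ∧ ∀ q ∈ Bx ⟨s, r - 2 * M⟩ (L + M) M ×ˢ ball (u₁ : ℂ) (2 * ρ),
    ‖Z q - q.1‖ * R ^ 2 ≤ a * (r - q.1.im) / 16 * ‖q.2‖ ^ 2

/-- **H3**: touching points exist, below them lies a parabola -/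
def Spec_TCH : Prop := ∀ (r κ u₀ : ℝ) (θ H : ℂ → ℂ) (Y₀ : ℂ × ℂ → ℂ) (η : ℝ → ℝ)
  (Y : ℝ → ℂ × ℂ → ℂ) (M ρ u' : ℝ), Fam r κ u₀ θ H Y₀ η Y → 0 < M → 0 < ρ → 0 < u' - ρ →
  u' + ρ < u₀ → (∀ v : ℝ, |v - u'| ≤ ρ → η v ≤ M) → ∃ u, Tch η M ρ u' u

/-- the parabola (elementary) -/
def Spec_PAR : Prop := ∀ (η : ℝ → ℝ) (M ρ u' u : ℝ), 0 < ρ → 0 ≤ η u → η u ≤ M →
  Tch η M ρ u' u → |slp η M ρ u' u| ≤ 16 * M / ρ ∧ ∀ v : ℝ, |v - u'| ≤ ρ →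
    η v ≤ η u + slp η M ρ u' u * (v - u) + 32 * M / ρ ^ 2 * (v - u) ^ 2

/-- **H1**: the cone at a touching point -/
def Spec_CONE : Prop := ∀ (r c κ u₀ : ℝ) (θ H Q : ℂ → ℂ) (Y₀ : ℂ × ℂ → ℂ) (η : ℝ → ℝ)
  (Y : ℝ → ℂ × ℂ → ℂ) (s L M u₁ ρ u' u : ℝ) (Z : ℂ × ℂ → ℂ), Cur r c θ H Q →
  Fam r κ u₀ θ H Y₀ η Y → Apr r u₀ η Y s L M u₁ ρ Z → |u' - u₁| ≤ ρ / 2 → Tch η M ρ u' u →
  ∃ Z', Tru r θ H Y (CD s L (r - 2 * M) (r - η u) u (slp η M ρ u' u) (32 * M / ρ ^ 2)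
    (36 * M / ρ) (ρ / 2)) Z' ∧
    ∀ q ∈ CD s L (r - 2 * M) (r - η u) u (slp η M ρ u' u) (32 * M / ρ ^ 2) (36 * M / ρ) (ρ / 2),
      q.1.im < r - M → Z' q = Z q

/-- **H4**: different centres have different touching points, uniformly -/
def Spec_SEP : Prop := ∀ ν : ℝ, 0 < ν → ∃ δ : ℝ, 0 < δ ∧
  ∀ (r κ u₀ : ℝ) (θ H : ℂ → ℂ) (Y₀ : ℂ × ℂ → ℂ) (η : ℝ → ℝ) (Y : ℝ → ℂ × ℂ → ℂ)
    (s L M u₁ ρ u' u'' u v : ℝ) (Z : ℂ × ℂ → ℂ), Fam r κ u₀ θ H Y₀ η Y →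
    Apr r u₀ η Y s L M u₁ ρ Z → |u' - u₁| ≤ ρ / 8 → |u'' - u₁| ≤ ρ / 8 → Tch η M ρ u' u →
    Tch η M ρ u'' v → ν * ρ ≤ |u' - u''| → δ * ρ ≤ |u - v|

/-- **H5**: normal families of maps into the lower half plane, on moving domains -/
def Spec_HP : Prop := ∀ (𝒰 : Ultrafilter ℕ) (f : ℕ → ℂ × ℂ → ℂ) (U : Set (ℂ × ℂ)) (q₀ : ℂ × ℂ)
  (B : ℝ), IsOpen U → IsPreconnected U → q₀ ∈ U →
  (∀ q ∈ U, ∃ ρ > 0, ∀ᶠ j in 𝒰, DifferentiableOn ℂ (f j) (ball q ρ) ∧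
    ∀ p ∈ ball q ρ, (f j p).im < 0) →
  0 < B → (∀ᶠ j in 𝒰, ‖f j q₀‖ ≤ B ∧ (f j q₀).im ≤ -B⁻¹) →
  P299.H720.LocBdd (𝒰 : Filter ℕ) f U ∧ ∃ g : ℂ × ℂ → ℂ, AnalyticOnNhd ℂ g U ∧
    (∀ q ∈ U, (g q).im < 0) ∧ ∀ q ∈ U, ∀ p : ℕ → ℂ × ℂ, Tendsto p 𝒰 (𝓝 q) →
      Tendsto (fun j => f j (p j)) 𝒰 (𝓝 (g q))

/-! ## The rows -/

/-- bounds of the Taylor coefficients of all powers at the centres on a segment -/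
def Cb (F : ℂ × ℂ → ℂ) (c : ℂ) (L : ℝ) (w : ℂ) (R : ℝ) : Prop := ∀ (x₀ : ℂ) (k n : ℕ),
  x₀.im = c.im → |x₀.re - c.re| < L → ‖co (fun q => F q ^ k) x₀ w n‖ * R ^ n ≤ 1

/-- the strip of half width `r` onto the unit disc -/
def cay (r : ℝ) (y : ℂ) : ℂ :=
  (exp (Real.pi * y / (2 * r)) - 1) / (exp (Real.pi * y / (2 * r)) + 1)

/-- the inverse map -/
def yac (r : ℝ) (z : ℂ) : ℂ := 2 * r / Real.pi * log ((1 + z) / (1 - z))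

/-- 1501: the two maps -/
def S_CAY : Prop := ∀ r : ℝ, 0 < r →
  (∀ y ∈ Strip r, AnalyticAt ℂ (cay r) y ∧ ‖cay r y‖ < 1 ∧ yac r (cay r y) = y) ∧
  ∀ z : ℂ, ‖z‖ < 1 → AnalyticAt ℂ (yac r) z ∧ yac r z ∈ Strip r

/-- 1502: summation of the Taylor series -/
def S_HULL : Prop := ∀ (F : ℂ × ℂ → ℂ) (c : ℂ) (L m : ℝ) (V : Set ℂ) (ρ : ℂ → ℝ), 0 < m →
  IsOpen V → Continuous ρ → (∀ w, 0 < ρ w) → DifferentiableOn ℂ F (Bx c L m ×ˢ V) →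
  (∀ w ∈ V, Cb F c L w (ρ w)) →
  ∃ G : ℂ × ℂ → ℂ, DifferentiableOn ℂ G {q | q.2 ∈ V ∧ q.1 ∈ Bx c L (ρ q.2)} ∧
    ∀ q : ℂ × ℂ, q.2 ∈ V → q.1 ∈ Bx c L (ρ q.2) →
      ‖G q‖ ≤ 1 ∧ (|q.1.im - c.im| < m → G q = F q)

/-- 1503: the same for maps into a strip -/
def S_STR : Prop := ∀ (Z : ℂ × ℂ → ℂ) (c : ℂ) (r L m : ℝ) (V : Set ℂ) (ρ : ℂ → ℝ), 0 < r → 0 < m →
  IsOpen V → Continuous ρ → (∀ w, 0 < ρ w) → AnalyticOnNhd ℂ Z (Bx c L m ×ˢ V) →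
  MapsTo Z (Bx c L m ×ˢ V) (Strip r) → (∀ w ∈ V, Cb (fun q => cay r (Z q)) c L w (ρ w)) →
  ∃ G : ℂ × ℂ → ℂ, AnalyticOnNhd ℂ G {q | q.2 ∈ V ∧ q.1 ∈ Bx c L (ρ q.2)} ∧
    ∀ q : ℂ × ℂ, q.2 ∈ V → q.1 ∈ Bx c L (ρ q.2) →
      G q ∈ Strip r ∧ (|q.1.im - c.im| < m → G q = Z q)

/-- 1504: the coefficient bounds of an a priori chart, for complex and for real steps -/
def S_CB : Prop := ∀ (r κ u₀ : ℝ) (θ H : ℂ → ℂ) (Y₀ : ℂ × ℂ → ℂ) (η : ℝ → ℝ)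
  (Y : ℝ → ℂ × ℂ → ℂ) (s L M u₁ ρ : ℝ) (Z : ℂ × ℂ → ℂ), Fam r κ u₀ θ H Y₀ η Y →
  Apr r u₀ η Y s L M u₁ ρ Z →
  (∀ w ∈ ball (u₁ : ℂ) (2 * ρ), Cb (fun q => cay r (Z q)) ⟨s, r - 2 * M⟩ L w M) ∧
  (∀ u : ℝ, |u - u₁| < 2 * ρ → Cb (fun q => cay r (Z q)) ⟨s, r - 2 * M⟩ L u (2 * M - η u)) ∧
  ∀ u : ℝ, |u - u₁| < 2 * ρ → ∀ x ∈ Bx ⟨s, r - 2 * M⟩ (L + M) M, Z =ᶠ[𝓝 (x, (u : ℂ))] Y u

/-- 1505: maximum modulus for the coefficients on a rectangle -/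
def S_MAX : Prop := ∀ (F : ℂ × ℂ → ℂ) (c : ℂ) (L m x₁ x₂ y₁ y₂ : ℝ) (V : Set ℂ) (ψ : ℂ → ℂ),
  0 < m → IsOpen V → x₁ < x₂ → y₁ < y₂ → DifferentiableOn ℂ F (Bx c L m ×ˢ V) →
  (∀ w : ℂ, w.re ∈ Icc x₁ x₂ → w.im ∈ Icc y₁ y₂ → w ∈ V ∧ DifferentiableAt ℂ ψ w) →
  (∀ w : ℂ, w.re ∈ Icc x₁ x₂ → w.im ∈ Icc y₁ y₂ → w.re = x₁ ∨ w.re = x₂ ∨ w.im = y₁ ∨ w.im = y₂ →
    Cb F c L w (Real.exp (ψ w).re)) →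
  ∀ w : ℂ, w.re ∈ Icc x₁ x₂ → w.im ∈ Icc y₁ y₂ → Cb F c L w (Real.exp (ψ w).re)

/-- 1506: a product chart which contains a deep point of the leaf bounds the loss -/
def S_RAISE : Prop := ∀ (r κ u₀ : ℝ) (θ H : ℂ → ℂ) (Y₀ : ℂ × ℂ → ℂ) (η : ℝ → ℝ)
  (Y : ℝ → ℂ × ℂ → ℂ) (c x₀ : ℂ) (L m σ u : ℝ) (Z : ℂ × ℂ → ℂ), Fam r κ u₀ θ H Y₀ η Y →
  u ∈ Ioo 0 u₀ → 0 < σ → 3 * u ≤ L → AnalyticOnNhd ℂ Z (Bx c L m ×ˢ ball (u : ℂ) σ) →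
  MapsTo Z (Bx c L m ×ˢ ball (u : ℂ) σ) (Strip r) → x₀ ∈ Bx c L m → x₀ ∈ Strip (r - η u) →
  Z =ᶠ[𝓝 (x₀, (u : ℂ))] Y u → c.im + m ≤ r - η u

/-- 1507: the loss is upper semicontinuous -/
def S_USC : Prop := ∀ (r κ u₀ : ℝ) (θ H : ℂ → ℂ) (Y₀ : ℂ × ℂ → ℂ) (η : ℝ → ℝ)
  (Y : ℝ → ℂ × ℂ → ℂ), Fam r κ u₀ θ H Y₀ η Y → ∀ u ∈ Ioo 0 u₀, ∀ t : ℝ, η u < t →
  ∀ᶠ v in 𝓝 u, η v < t

/-- 1508: germs and the law on a convex domain -/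
def S_TRU : Prop := ∀ (r c κ u₀ : ℝ) (θ H Q : ℂ → ℂ) (Y₀ : ℂ × ℂ → ℂ) (η : ℝ → ℝ)
  (Y : ℝ → ℂ × ℂ → ℂ) (D : Set (ℂ × ℂ)) (Z : ℂ × ℂ → ℂ) (x₀ : ℂ) (u : ℝ), Cur r c θ H Q →
  Fam r κ u₀ θ H Y₀ η Y → IsOpen D → Convex ℝ D → AnalyticOnNhd ℂ Z D → MapsTo Z D (Strip r) →
  (∀ (x : ℂ) (v : ℝ), (x, (v : ℂ)) ∈ D → v ∈ Ioo 0 u₀ ∧ x ∈ Strip (r - η v) ∧
    ∃ x' : ℂ, (x', (v : ℂ)) ∈ D ∧ Z =ᶠ[𝓝 (x', (v : ℂ))] Y v) →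
  (x₀ - u, (u : ℂ)) ∈ D → (x₀, (u : ℂ)) ∈ D → (x₀ + u, (u : ℂ)) ∈ D → Tru r θ H Y D Z

theorem Cb.mono {F : ℂ × ℂ → ℂ} {c w : ℂ} {L R R' : ℝ} (h : Cb F c L w R) (h0 : 0 ≤ R')
    (h1 : R' ≤ R) : Cb F c L w R' := fun x₀ k n a b =>
  (mul_le_mul_of_nonneg_left (pow_le_pow_left₀ h0 h1 n) (norm_nonneg _)).trans (h x₀ k n a b)

theorem bx_open (c : ℂ) (a b : ℝ) : IsOpen (Bx c a b) :=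
  (isOpen_lt (continuous_re.sub continuous_const).abs continuous_const).inter
    (isOpen_lt (continuous_im.sub continuous_const).abs continuous_const)

theorem bx_convex (c : ℂ) (a b : ℝ) : Convex ℝ (Bx c a b) := by
  have e : Bx c a b = (reLm ⁻¹' Ioo (c.re - a) (c.re + a)) ∩ (imLm ⁻¹' Ioo (c.im - b) (c.im + b)) := by
    ext y
    simp only [Bx, mem_setOf_eq, mem_inter_iff, mem_preimage, mem_Ioo, abs_lt, reLm_coe, imLm_coe]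
    constructor
    · rintro ⟨⟨h1, h2⟩, h3, h4⟩
      exact ⟨⟨by linarith, by linarith⟩, by linarith, by linarith⟩
    · rintro ⟨⟨h1, h2⟩, h3, h4⟩
      exact ⟨⟨by linarith, by linarith⟩, by linarith, by linarith⟩
  rw [e]
  exact ((convex_Ioo _ _).linear_preimage _).inter ((convex_Ioo _ _).linear_preimage _)

end Vale.Agent.P097F.H
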