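import Vale.Agent.P097N.Ser
import Vale.Agent.P097N.Ext
import Vale.Agent.P097N.Coef

/-!
# P097F/H: bounds of Taylor coefficients and extensions with values in a strip
-/

set_option linter.all false

noncomputable section

namespace Vale.Agent.P097F.H.HullA

open Filter Topology Set Metric Complex
open Vale.Agent.P097N (co sext)

/-- the strip onto the disc -/
def tn (r : ℝ) (y : ℂ) : ℂ :=
  (exp ((Real.pi / (2 * r) : ℝ) * y) - 1) / (exp ((Real.pi / (2 * r) : ℝ) * y) + 1)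

/-- the disc onto the strip -/
def itn (r : ℝ) (ζ : ℂ) : ℂ := (2 * r / Real.pi : ℝ) * log ((1 + ζ) / (1 - ζ))

variable {r : ℝ}

theorem arg_lt (hr : 0 < r) {y : ℂ} (h : |y.im| < r) :
    |(((Real.pi / (2 * r) : ℝ) : ℂ) * y).im| < Real.pi / 2 := by
  rw [im_ofReal_mul, abs_mul, abs_of_pos (by positivity), div_mul_eq_mul_div,
    div_lt_div_iff₀ (by positivity) two_pos]
  nlinarith [mul_lt_mul_of_pos_left h Real.pi_pos]

theorem re_pos (hr : 0 < r) {y : ℂ} (h : |y.im| < r) :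
    0 < (exp ((Real.pi / (2 * r) : ℝ) * y)).re := by
  rw [exp_re]
  exact mul_pos (Real.exp_pos _) (Real.cos_pos_of_mem_Ioo (abs_lt.1 (arg_lt hr h)))

theorem ne1 {E : ℂ} (h : 0 < E.re) : E + 1 ≠ 0 := fun e => by
  have := congrArg re e
  simp at this
  linarith

theorem tn_lt (hr : 0 < r) {y : ℂ} (h : |y.im| < r) : ‖tn r y‖ < 1 := by
  have p := re_pos hr h
  unfold tn
  generalize exp ((Real.pi / (2 * r) : ℝ) * y) = E at p
  rw [norm_div, div_lt_one (norm_pos_iff.2 (ne1 p)), ← sq_lt_sq₀ (norm_nonneg _) (norm_nonneg _),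
    Complex.sq_norm, Complex.sq_norm, normSq_apply, normSq_apply]
  simp only [sub_re, sub_im, add_re, add_im, one_re, one_im]
  nlinarith

theorem tn_diff (hr : 0 < r) {y : ℂ} (h : |y.im| < r) : DifferentiableAt ℂ (tn r) y :=
  DifferentiableAt.div (by fun_prop) (by fun_prop) (ne1 (re_pos hr h))

theorem itn_tn (hr : 0 < r) {y : ℂ} (h : |y.im| < r) : itn r (tn r y) = y := by
  have p := ne1 (re_pos hr h)
  have a := abs_lt.1 (arg_lt hr h)
  have e : (1 + tn r y) / (1 - tn r y) = exp ((Real.pi / (2 * r) : ℝ) * y) := by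
    unfold tn
    generalize exp ((Real.pi / (2 * r) : ℝ) * y) = E at p
    rw [show 1 - (E - 1) / (E + 1) = 2 / (E + 1) by field_simp; ring]
    field_simp
    ring
  rw [itn, e, log_exp (by linarith [Real.pi_pos]) (by linarith [Real.pi_pos]), ← mul_assoc,
    ← ofReal_mul, show 2 * r / Real.pi * (Real.pi / (2 * r)) = 1 by field_simp]
  simp

theorem cay {ζ : ℂ} (h : ‖ζ‖ < 1) : 1 - ζ ≠ 0 ∧ 0 < ((1 + ζ) / (1 - ζ)).re := by
  have n : 1 - ζ ≠ 0 := fun e => by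
    rw [← sub_eq_zero.1 e] at h
    simp at h
  refine ⟨n, ?_⟩
  rw [div_re, ← add_div]
  refine div_pos ?_ (normSq_pos.2 n)
  rw [← sq_lt_sq₀ (norm_nonneg _) zero_le_one, Complex.sq_norm, normSq_apply] at h
  simp only [sub_re, sub_im, add_re, add_im, one_re, one_im]
  nlinarith

theorem itn_mem (hr : 0 < r) {ζ : ℂ} (h : ‖ζ‖ < 1) : |(itn r ζ).im| < r := by
  have a := abs_arg_lt_pi_div_two_iff.2 (Or.inl (cay h).2)
  rw [itn, im_ofReal_mul, log_im, abs_mul, abs_of_pos (by positivity), div_mul_eq_mul_div,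
    div_lt_iff₀ Real.pi_pos]
  nlinarith

theorem itn_diff {ζ : ℂ} (h : ‖ζ‖ < 1) : DifferentiableAt ℂ (itn r) ζ :=
  ((DifferentiableAt.div (by fun_prop) (by fun_prop) (cay h).1).clog
    (Or.inl (cay h).2)).const_mul _

/-- the coefficients of the powers -/
def cf (r : ℝ) (Z : ℂ × ℂ → ℂ) (X : ℂ) (m k : ℕ) (w : ℂ) : ℂ :=
  co (fun q => tn r (Z q) ^ m) X w k

theorem pw_diff (hr : 0 < r) {Z : ℂ × ℂ → ℂ} {S : Set (ℂ × ℂ)} (dZ : DifferentiableOn ℂ Z S)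
    (mZ : ∀ q ∈ S, |(Z q).im| < r) (m : ℕ) :
    DifferentiableOn ℂ (fun q => tn r (Z q) ^ m) S := fun q hq =>
  ((tn_diff hr (mZ q hq)).comp_differentiableWithinAt q (dZ q hq)).pow m

theorem cf_diff (hr : 0 < r) {Z : ℂ × ℂ → ℂ} {X : ℂ} {M : ℝ} {V : Set ℂ} (M0 : 0 < M)
    (hV : IsOpen V) (dZ : DifferentiableOn ℂ Z (ball X M ×ˢ V))
    (mZ : ∀ q ∈ ball X M ×ˢ V, |(Z q).im| < r) (m k : ℕ) : DifferentiableOn ℂ (cf r Z X m k) V :=
  P097N.Coef.co_diff isOpen_ball hV (mem_ball_self M0) (pw_diff hr dZ mZ m) k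

/-- an extension in one variable bounds the coefficients -/
theorem cf_le (hr : 0 < r) {Z : ℂ × ℂ → ℂ} {X w : ℂ} {R : ℝ} {G : ℂ → ℂ} (R0 : 0 < R)
    (dG : DifferentiableOn ℂ G (ball X R)) (mG : ∀ x ∈ ball X R, |(G x).im| < r)
    (e : ∀ᶠ x in 𝓝 X, G x = Z (x, w)) (m k : ℕ) : ‖cf r Z X m k w‖ * R ^ k ≤ 1 :=
  (sext (fun q => tn r (Z q) ^ m) X w R 1 R0).2 (fun x => tn r (G x) ^ m)
    (fun x hx => ((tn_diff hr (mG x hx)).comp_differentiableWithinAt x (dG x hx)).pow m)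
    (fun x hx => by
      rw [norm_pow]
      exact pow_le_one₀ (norm_nonneg _) (tn_lt hr (mG x hx)).le)
    (e.mono fun x hx => by rw [hx]) k

/-- bounds of the coefficients give an extension in two variables -/
theorem hull (hr : 0 < r) {Z : ℂ × ℂ → ℂ} {X : ℂ} {M : ℝ} {V : Set ℂ} {ρ : ℂ → ℝ} (M0 : 0 < M)
    (hV : IsOpen V) (dZ : DifferentiableOn ℂ Z (ball X M ×ˢ V))
    (mZ : ∀ q ∈ ball X M ×ˢ V, |(Z q).im| < r) (cρ : ContinuousOn ρ V) (ρ0 : ∀ w ∈ V, 0 < ρ w)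
    (h : ∀ m k, ∀ w ∈ V, ‖cf r Z X m k w‖ * ρ w ^ k ≤ 1) :
    ∃ F : ℂ × ℂ → ℂ, DifferentiableOn ℂ F {p | p.2 ∈ V ∧ ‖p.1 - X‖ < ρ p.2} ∧
      ∀ p : ℂ × ℂ, p.2 ∈ V → ‖p.1 - X‖ < ρ p.2 →
        |(F p).im| < r ∧ (‖p.1 - X‖ < M → F p = Z p) := by
  set T : ℕ → ℂ × ℂ → ℂ := fun m p => ∑' k, cf r Z X m k p.2 * (p.1 - X) ^ k with hT
  have tl : ∀ m, ∀ p : ℂ × ℂ, p.2 ∈ V → ∀ q : ℝ, ‖p.1 - X‖ ≤ q * ρ p.2 → ∀ k,
      ‖cf r Z X m k p.2 * (p.1 - X) ^ k‖ ≤ q ^ k := fun m p hp q hq k => by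
    have q0 : 0 ≤ q := nonneg_of_mul_nonneg_left ((norm_nonneg _).trans hq) (ρ0 _ hp)
    rw [norm_mul, norm_pow]
    refine (mul_le_mul_of_nonneg_left (pow_le_pow_left₀ (norm_nonneg _) hq k)
      (norm_nonneg _)).trans ?_
    rw [mul_pow, mul_comm (q ^ k), ← mul_assoc]
    exact mul_le_of_le_one_left (by positivity) (h m k _ hp)
  have dT : ∀ m, ∀ p : ℂ × ℂ, p.2 ∈ V → ‖p.1 - X‖ < ρ p.2 → DifferentiableAt ℂ (T m) p := by
    intro m p hp hq
    obtain ⟨q, h1, h2⟩ := exists_between ((div_lt_one (ρ0 _ hp)).2 hq)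
    have q0 : 0 ≤ q := (div_nonneg (norm_nonneg _) (ρ0 _ hp).le).trans h1.le
    let U : Set (ℂ × ℂ) := Prod.snd ⁻¹' V ∩ (fun p => q * ρ p.2 - ‖p.1 - X‖) ⁻¹' Ioi 0
    have hU : IsOpen U := ContinuousOn.isOpen_inter_preimage
      ((continuousOn_const.mul (cρ.comp continuousOn_snd fun p hp => hp)).sub (by fun_prop))
      (hV.preimage continuous_snd) isOpen_Ioi
    exact (P097A.Bern.diff_tsum hU (summable_geometric_of_lt_one q0 h2)
      (fun k => ((cf_diff hr M0 hV dZ mZ m k).comp differentiableOn_snd fun p hp => hp.1).mul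
        (by fun_prop))
      fun k p hp => tl m p hp.1 q (sub_pos.1 hp.2).le k).differentiableAt
      (hU.mem_nhds ⟨hp, sub_pos.2 ((div_lt_iff₀ (ρ0 _ hp)).1 h1)⟩)
  have eT : ∀ m, ∀ p : ℂ × ℂ, p.2 ∈ V → ‖p.1 - X‖ < M → T m p = tn r (Z p) ^ m := by
    intro m p hp hx
    have d : DifferentiableOn ℂ (fun x => tn r (Z (x, p.2)) ^ m) (ball X M) :=
      (pw_diff hr dZ mZ m).comp (f := fun x : ℂ => (x, p.2)) (by fun_prop) fun x hx => ⟨hx, hp⟩
    rw [show Z p = Z (p.1, p.2) from rfl,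
      ← (Complex.hasSum_taylorSeries_on_ball d (mem_ball_iff_norm.2 hx)).tsum_eq]
    refine tsum_congr fun n => ?_
    simp only [cf, co, smul_eq_mul]
    ring
  have d1 : ∀ m, ∀ w ∈ V, DifferentiableOn ℂ (fun x => T m (x, w)) (ball X (ρ w)) :=
    fun m w hw x hx => ((dT m (x, w) hw (mem_ball_iff_norm.1 hx)).comp x
      (f := fun x : ℂ => (x, w)) (by fun_prop)).differentiableWithinAt
  have le1 : ∀ w ∈ V, ∀ x ∈ ball X (ρ w), ‖T 1 (x, w)‖ ≤ 1 := fun w hw x hx => by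
    have pw : ∀ m, T m (x, w) = T 1 (x, w) ^ m := fun m =>
      AnalyticOnNhd.eqOn_of_preconnected_of_eventuallyEq
        ((d1 m w hw).analyticOnNhd isOpen_ball) (((d1 1 w hw).pow m).analyticOnNhd isOpen_ball)
        (convex_ball _ _).isPreconnected (mem_ball_self (ρ0 w hw)) (by
          filter_upwards [ball_mem_nhds X M0] with y hy
          show T m (y, w) = T 1 (y, w) ^ m
          rw [eT m (y, w) hw (mem_ball_iff_norm.1 hy), eT 1 (y, w) hw (mem_ball_iff_norm.1 hy),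
            pow_one]) hx
    have q1 : ‖x - X‖ / ρ w < 1 := (div_lt_one (ρ0 w hw)).2 (mem_ball_iff_norm.1 hx)
    have q0 : 0 ≤ ‖x - X‖ / ρ w := div_nonneg (norm_nonneg _) (ρ0 w hw).le
    by_contra hc
    obtain ⟨m, hm⟩ := pow_unbounded_of_one_lt (1 - ‖x - X‖ / ρ w)⁻¹ (not_le.1 hc)
    rw [← norm_pow, ← pw] at hm
    exact hm.not_ge (tsum_of_norm_bounded (hasSum_geometric_of_lt_one q0 q1)
      (tl m (x, w) hw _ (div_mul_cancel₀ _ (ρ0 w hw).ne').ge))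
  have lt1 : ∀ p : ℂ × ℂ, p.2 ∈ V → ‖p.1 - X‖ < ρ p.2 → ‖T 1 p‖ < 1 := fun p hp hx => by
    by_contra hc
    have k := Complex.norm_eqOn_of_isPreconnected_of_isMaxOn (convex_ball X (ρ p.2)).isPreconnected
      isOpen_ball (d1 1 p.2 hp) (mem_ball_iff_norm.2 hx)
      (fun y hy => (le1 _ hp y hy).trans (not_lt.1 hc)) (mem_ball_self (ρ0 _ hp))
    simp only [Function.comp, Function.const] at k
    rw [eT 1 (X, p.2) hp (by simpa using M0), pow_one] at k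
    exact hc (k ▸ tn_lt hr (mZ (X, p.2) ⟨mem_ball_self M0, hp⟩))
  refine ⟨fun p => itn r (T 1 p), fun p hp => ((itn_diff (lt1 p hp.1 hp.2)).comp p
    (dT 1 p hp.1 hp.2)).differentiableWithinAt, fun p hp hx =>
      ⟨itn_mem hr (lt1 p hp hx), fun hM => ?_⟩⟩
  show itn r (T 1 p) = Z p
  rw [eT 1 p hp hM, pow_one, itn_tn hr (mZ p ⟨mem_ball_iff_norm.2 hM, hp⟩)]

end Vale.Agent.P097F.H.HullA
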