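import Mathlib

/-!
# P097F/H: the barrier for a convex kink
-/

set_option linter.all false

noncomputable section

namespace Vale.Agent.P097F.H.Kink

open Set Metric Complex Finset

/-- the barrier -/
def ps (r : ℝ) (N : ℕ) (z : ℂ) : ℂ :=
  ∑ k ∈ range (N + 1), ((2 ^ k * r : ℝ) : ℂ) * z / (z + (2 ^ k * r : ℝ) * I)

theorem den {a : ℝ} {z : ℂ} (h : -a < z.im) : z + a * I ≠ 0 := fun e => by
  have := congrArg im e
  simp at this
  linarith

theorem re_one {a : ℝ} (z : ℂ) : ((a : ℂ) * z / (z + a * I)).re =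
    a * (z.re ^ 2 + z.im ^ 2 + a * z.im) / (z.re ^ 2 + (z.im + a) ^ 2) := by
  rw [div_re, normSq_apply]
  simp only [mul_re, mul_im, add_re, add_im, ofReal_re, ofReal_im, I_re, I_im]
  rw [← add_div]
  congr 1 <;> ring

theorem ps_diff {r : ℝ} (hr : 0 < r) (N : ℕ) : DifferentiableOn ℂ (ps r N) {z | -r < z.im} := by
  refine DifferentiableOn.fun_sum fun k _ => DifferentiableOn.div (by fun_prop) (by fun_prop)
    fun z hz => den ?_
  have : r ≤ 2 ^ k * r := le_mul_of_one_le_left hr.le (one_le_pow₀ one_le_two)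
  have hz : -r < z.im := hz
  linarith

theorem ps_norm {r : ℝ} (hr : 0 < r) (N : ℕ) {z : ℂ} (hz : 0 ≤ z.im) :
    ‖ps r N z‖ ≤ 2 ^ (N + 1) * r := by
  refine (norm_sum_le _ _).trans ?_
  have k : ∀ k ∈ range (N + 1), ‖((2 ^ k * r : ℝ) : ℂ) * z / (z + (2 ^ k * r : ℝ) * I)‖ ≤
      2 ^ k * r := fun k _ => by
    have a0 : (0 : ℝ) < 2 ^ k * r := by positivity
    generalize (2 : ℝ) ^ k * r = a at a0
    rw [norm_div, norm_mul, norm_real, Real.norm_of_nonneg a0.le,
      div_le_iff₀ (norm_pos_iff.2 (den (by linarith)))]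
    refine mul_le_mul_of_nonneg_left ?_ a0.le
    rw [← sq_le_sq₀ (norm_nonneg _) (norm_nonneg _), Complex.sq_norm, Complex.sq_norm,
      normSq_apply, normSq_apply]
    simp only [add_re, add_im, mul_re, mul_im, ofReal_re, ofReal_im, I_re, I_im]
    nlinarith
  refine (sum_le_sum k).trans ?_
  rw [← sum_mul, geom_sum_eq (by norm_num)]
  nlinarith

theorem ps_real {r : ℝ} (hr : 0 < r) (N : ℕ) (x : ℝ) : (ps r N x).re ≤ 4 * |x| := by
  have y0 := abs_nonneg x
  have key : ∀ n : ℕ, ∑ k ∈ range n, (((2 ^ k * r : ℝ) : ℂ) * x / (x + (2 ^ k * r : ℝ) * I)).re ≤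
      4 * |x| * (2 ^ n * r / (2 ^ n * r + |x|)) := by
    intro n
    induction n with
    | zero =>
      rw [sum_range_zero]
      positivity
    | succ n ih =>
      rw [sum_range_succ, re_one, pow_succ (2 : ℝ) n, mul_right_comm ((2 : ℝ) ^ n) 2 r]
      have a0 : (0 : ℝ) < 2 ^ n * r := by positivity
      generalize (2 : ℝ) ^ n * r = a at a0 ih ⊢
      simp only [ofReal_re, ofReal_im]
      rw [← sq_abs x]
      generalize |x| = y at y0 ih ⊢
      have : a * (y ^ 2 + 0 ^ 2 + a * 0) / (y ^ 2 + (0 + a) ^ 2) ≤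
          4 * y * (a * 2 / (a * 2 + y)) - 4 * y * (a / (a + y)) := by
        have e : 4 * y * (a * 2 / (a * 2 + y)) - 4 * y * (a / (a + y)) =
            a * y ^ 2 * (4 / ((a * 2 + y) * (a + y))) := by
          field_simp
          ring
        rw [e, show a * (y ^ 2 + 0 ^ 2 + a * 0) / (y ^ 2 + (0 + a) ^ 2) =
          a * y ^ 2 * (1 / (y ^ 2 + a ^ 2)) by ring]
        refine mul_le_mul_of_nonneg_left ?_ (by positivity)
        rw [div_le_div_iff₀ (by positivity) (by positivity)]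
        nlinarith [sq_nonneg (a - y)]
      linarith
  rw [ps, re_sum]
  refine (key _).trans (mul_le_of_le_one_right (by positivity) ?_)
  rw [div_le_one (by positivity)]
  linarith

theorem ps_circ {r : ℝ} (hr : 0 < r) (N : ℕ) {z : ℂ} (hz : 0 ≤ z.im) (h : ‖z‖ = r) :
    r / 2 + N * z.im / 4 ≤ (ps r N z).re := by
  have q : z.re ^ 2 + z.im ^ 2 = r ^ 2 := by
    rw [← h, Complex.sq_norm, normSq_apply]
    ring
  have v1 : z.im ≤ r := h ▸ im_le_norm z
  rw [ps, re_sum, sum_range_succ', add_comm]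
  refine add_le_add ?_ (le_of_eq ?_)
  · have k : ∀ k ∈ range N, z.im / 4 ≤
        (((2 ^ (k + 1) * r : ℝ) : ℂ) * z / (z + (2 ^ (k + 1) * r : ℝ) * I)).re := fun k _ => by
      have a0 : r ≤ 2 ^ (k + 1) * r := le_mul_of_one_le_left hr.le (one_le_pow₀ one_le_two)
      generalize (2 : ℝ) ^ (k + 1) * r = a at a0
      have a1 : 0 < a := by linarith
      rw [re_one, div_le_div_iff₀ (by norm_num) (by positivity), q,
        show z.re ^ 2 + (z.im + a) ^ 2 = r ^ 2 + 2 * z.im * a + a ^ 2 by rw [← q]; ring]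
      have b1 : r ^ 2 + 2 * z.im * a + a ^ 2 ≤ 4 * a ^ 2 := by nlinarith
      nlinarith [mul_le_mul_of_nonneg_left b1 hz, mul_pos a1 (pow_pos hr 2)]
    have := sum_le_sum k
    rw [sum_const, card_range, nsmul_eq_mul] at this
    linarith
  · rw [re_one, pow_zero, one_mul, q,
      show z.re ^ 2 + (z.im + r) ^ 2 = 2 * (r ^ 2 + r * z.im) by rw [mul_add, ← q]; nlinarith]
    have : 0 < r ^ 2 + r * z.im := by positivity
    field_simp

end Vale.Agent.P097F.H.Kink
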