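import Vale.Agent.P097F.H.ConeA

/-!
# P097F/H: the cone. At every scale most real points have a cone below a superharmonic envelope
-/

set_option linter.all false

noncomputable section

namespace Vale.Agent.P097F.H.Cone

open Set Metric Filter Topology Complex InnerProductSpace MeasureTheory
open Vale.Agent.P167.BVP (exists_dirichlet)

theorem env {X : Type} [TopologicalSpace X] (a : ℕ → X → ℝ) (ca : ∀ i, Continuous (a i))
    (n : ℕ → ℝ) (hn : ∀ i, 0 < n i) (M : ℝ) (N : ℕ) : ∃ F : X → ℝ, Continuous F ∧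
      (∀ x, F x ≤ M) ∧ (∀ x, ∀ i < N, a i x ≤ Real.exp (-(n i * F x))) ∧
      ∀ x t, t ≤ M → (∀ i < N, a i x ≤ Real.exp (-(n i * t))) → t ≤ F x := by
  induction N with
  | zero => exact ⟨fun _ => M, continuous_const, fun _ => le_rfl, by simp, fun _ _ h _ => h⟩
  | succ N ih =>
    obtain ⟨F, c, h1, h2, h3⟩ := ih
    have p : ∀ x, 0 < max (a N x) (Real.exp (-(n N * M))) := fun x =>
      (Real.exp_pos _).trans_le (le_max_right _ _)
    have n0 := hn N
    refine ⟨fun x => min (F x) (-Real.log (max (a N x) (Real.exp (-(n N * M)))) / n N),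
      c.min ((((ca N).max continuous_const).log fun x => (p x).ne').neg.div_const _),
      fun x => (min_le_left _ _).trans (h1 x), fun x i hi => ?_, fun x t ht h => le_min
        (h3 x t ht fun i hi => h i (by omega)) ?_⟩
    · rcases Nat.lt_succ_iff_lt_or_eq.1 hi with k | rfl
      · exact (h2 x i k).trans (Real.exp_le_exp.2 (neg_le_neg
          (mul_le_mul_of_nonneg_left (min_le_left _ _) (hn i).le)))
      · refine (le_max_left _ (Real.exp (-(n i * M)))).trans ?_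
        rw [← Real.log_le_iff_le_exp (p x), le_neg, mul_comm, ← le_div_iff₀ n0]
        exact min_le_right _ _
    · rw [le_div_iff₀ n0, le_neg, Real.log_le_iff_le_exp (p x), mul_comm t]
      exact max_le (h N (by omega)) (Real.exp_le_exp.2 (neg_le_neg
        (mul_le_mul_of_nonneg_left ht n0.le)))

theorem rect {H c : ℂ → ℂ} {v : ℂ → ℝ} {n B σ b : ℝ} (dH : DifferentiableOn ℂ H (ball 0 1))
    (cv : ContinuousOn v (closedBall 0 1)) (e : ∀ z ∈ ball (0 : ℂ) 1, (H z).re = v z)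
    (B0 : 0 ≤ B) (hv : ∀ z ∈ closedBall (0 : ℂ) 1, v z ≤ B * (z.re - 2 / 3))
    (dc : DifferentiableOn ℂ c (ball 0 2)) (c1 : ∀ w ∈ ball (0 : ℂ) 2, ‖c w‖ ≤ 1) (n0 : 0 ≤ n)
    (b0 : b ≤ 0) (b1 : -(1 / 2) ≤ b) (b2 : 0 ≤ b + σ)
    (h : ∀ w : ℂ, |w.re| ≤ 1 → w.im = b → ‖c w‖ ≤ Real.exp (-(n * v (ee (w + σ * I))))) :
    ∀ w : ℂ, |w.re| ≤ 1 → b ≤ w.im → w.im ≤ 1 / 2 →
      ‖c w‖ ≤ Real.exp (-(n * v (ee (w + σ * I)))) := by
  have b3 : b < 1 / 2 := by linarith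
  have cl : closure (Ioo (-1 : ℝ) 1 ×ℂ Ioo b (1 / 2)) = Icc (-1 : ℝ) 1 ×ℂ Icc b (1 / 2) := by
    rw [closure_reProdIm, closure_Ioo (by norm_num), closure_Ioo b3.ne]
  have im : ∀ w : ℂ, (w + σ * I).im = w.im + σ := fun w => by simp
  have re : ∀ w : ℂ, (w + σ * I).re = w.re := fun w => by simp
  have sub : ∀ w ∈ Icc (-1 : ℝ) 1 ×ℂ Icc b (1 / 2), w ∈ ball (0 : ℂ) 2 := fun w hw => by
    have a1 : |w.re| ≤ 1 := abs_le.2 hw.1
    have a2 : |w.im| ≤ 1 / 2 := abs_le.2 ⟨b1.trans hw.2.1, hw.2.2⟩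
    rw [mem_ball_zero_iff]
    linarith [norm_le_abs_re_add_abs_im w]
  have sc : Ioo (-1 : ℝ) 1 ×ℂ Ioo b (1 / 2) ⊆ Icc (-1 : ℝ) 1 ×ℂ Icc b (1 / 2) :=
    cl ▸ subset_closure
  have up : ∀ w ∈ Ioo (-1 : ℝ) 1 ×ℂ Ioo b (1 / 2), ee (w + σ * I) ∈ ball (0 : ℂ) 1 :=
    fun w hw => ee_ball (by rw [im]; linarith [hw.2.1])
  have up' : ∀ w ∈ Icc (-1 : ℝ) 1 ×ℂ Icc b (1 / 2), ee (w + σ * I) ∈ closedBall (0 : ℂ) 1 :=
    fun w hw => ee_cball (by rw [im]; linarith [hw.2.1])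
  have key := maxp (U := Ioo (-1 : ℝ) 1 ×ℂ Ioo b (1 / 2)) (isOpen_Ioo.reProdIm isOpen_Ioo)
    (((convex_Ioo _ _).is_linear_preimage reLm.isLinear).inter
      ((convex_Ioo _ _).is_linear_preimage imLm.isLinear)).isPreconnected
    ((isBounded_Ioo _ _).reProdIm (isBounded_Ioo _ _))
    (F := fun w => c w * exp (n * H (ee (w + σ * I))))
    (N := fun w => ‖c w‖ * Real.exp (n * v (ee (w + σ * I)))) (C := 1)
    ((dc.mono fun w hw => sub w (sc hw)).mul (((dH.comp (fun w _ =>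
      (((ee_der _).comp_add_const w _).differentiableAt).differentiableWithinAt) up).const_mul
        _).cexp))
    (by
      rw [cl]
      exact (dc.continuousOn.mono sub).norm.mul (Real.continuous_exp.comp_continuousOn
        (continuousOn_const.mul (cv.comp (ee_cont.comp (by fun_prop)).continuousOn up'))))
    (fun w hw => by rw [norm_mul, norm_exp, re_ofReal_mul, e _ (up w hw)])
    (fun w hw => by
      have m : w ∈ Icc (-1 : ℝ) 1 ×ℂ Icc b (1 / 2) := cl ▸ frontier_subset_closure hw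
      have z : (ee (w + σ * I)).re ≤ 2 / 3 → ‖c w‖ * Real.exp (n * v (ee (w + σ * I))) ≤ 1 :=
        fun k => mul_le_one₀ (c1 w (sub w m)) (Real.exp_pos _).le (Real.exp_le_one_iff.2
          (mul_nonpos_of_nonneg_of_nonpos n0 ((hv _ (up' w m)).trans
            (mul_nonpos_of_nonneg_of_nonpos B0 (by linarith)))))
      have e1 : Real.exp (-(w.im + σ)) ≤ 1 := Real.exp_le_one_iff.2 (by linarith [m.2.1])
      have e0 := Real.exp_pos (-(w.im + σ))
      rw [frontier_reProdIm, frontier_Ioo b3, frontier_Ioo (by norm_num)] at hw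
      rcases hw with ⟨-, k | k⟩ | ⟨k, -⟩
      · have := h w (abs_le.2 m.1) k
        rwa [Real.exp_neg, inv_eq_one_div, le_div_iff₀ (Real.exp_pos _)] at this
      · refine z ?_
        rw [ee_re, im, re]
        have k : w.im = 1 / 2 := k
        have e2 : Real.exp (-(w.im + σ)) ≤ 2 / 3 := by
          rw [Real.exp_neg, inv_le_comm₀ (Real.exp_pos _) (by norm_num)]
          linarith [Real.add_one_le_exp (w.im + σ)]
        nlinarith [Real.cos_le_one w.re]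
      · refine z ?_
        rw [ee_re, im, re]
        have k2 : Real.cos w.re = Real.cos 1 := by
          rcases k with k | k
          · rw [show w.re = -1 from k, Real.cos_neg]
          · rw [show w.re = 1 from k]
        rw [k2]
        nlinarith [Real.cos_one_le, Real.cos_one_pos])
  intro w h1 h2 h3
  have := key w (by rw [cl]; exact ⟨abs_le.1 h1, h2, h3⟩)
  rwa [Real.exp_neg, inv_eq_one_div, le_div_iff₀ (Real.exp_pos _)]

theorem shift {H c : ℂ → ℂ} {v : ℂ → ℝ} {n B σ : ℝ} (dH : DifferentiableOn ℂ H (ball 0 1))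
    (cv : ContinuousOn v (closedBall 0 1)) (e : ∀ z ∈ ball (0 : ℂ) 1, (H z).re = v z)
    (B0 : 0 ≤ B) (hv : ∀ z ∈ closedBall (0 : ℂ) 1, v z ≤ B * (z.re - 2 / 3))
    (dc : DifferentiableOn ℂ c (ball 0 2)) (c1 : ∀ w ∈ ball (0 : ℂ) 2, ‖c w‖ ≤ 1) (n0 : 0 ≤ n)
    (σ0 : 0 ≤ σ) (σ1 : σ ≤ 1)
    (h : ∀ u : ℝ, |u| ≤ 1 → ‖c u‖ ≤ Real.exp (-(n * v (ee u)))) :
    ∀ w : ℂ, |w.re| ≤ 1 → -(σ / 2) ≤ w.im → w.im ≤ 1 / 2 →
      ‖c w‖ ≤ Real.exp (-(n * v (ee (w + σ * I)))) := by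
  have mb : ∀ w ∈ ball (0 : ℂ) 2, (starRingEnd ℂ) w ∈ ball (0 : ℂ) 2 := fun w hw => by
    simpa using hw
  have k := rect (c := (starRingEnd ℂ) ∘ c ∘ (starRingEnd ℂ)) (σ := 0) (b := 0) dH cv e B0 hv
    (fun w hw => by
      have := (dc.differentiableAt (isOpen_ball.mem_nhds (mb w hw))).conj_conj
      rw [conj_conj] at this
      exact this.differentiableWithinAt)
    (fun w hw => by simpa using c1 _ (mb w hw)) n0 le_rfl (by norm_num) (by norm_num)
    fun w h1 h2 => by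
      have e1 : w = (w.re : ℝ) := Complex.ext rfl h2
      rw [e1]
      simpa using h w.re h1
  refine rect dH cv e B0 hv dc c1 n0 (by linarith) (by linarith) (by linarith) fun w h1 h2 => ?_
  have e1 : w + σ * I = (starRingEnd ℂ) w := Complex.ext (by simp) (by simp [h2]; ring)
  have := k ((starRingEnd ℂ) w) (by simpa using h1) (by rw [conj_im]; linarith)
    (by rw [conj_im]; linarith)
  rw [e1]
  simpa using this

theorem fin {c : ℕ → ℂ → ℂ} {n : ℕ → ℝ} {M s l : ℝ}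
    (dc : ∀ i, DifferentiableOn ℂ (c i) (ball 0 2)) (c1 : ∀ i, ∀ w ∈ ball (0 : ℂ) 2, ‖c i w‖ ≤ 1)
    (hn : ∀ i, 0 < n i) (M0 : 0 < M) (s0 : 0 < s) (s1 : s ≤ 1 / 2) (l1 : 1 ≤ l) (N : ℕ) :
    volume {u : ℝ | |u| ≤ 1 / 2 ∧ ∃ t ≤ M, (∀ i < N, ‖c i u‖ ≤ Real.exp (-(n i * t))) ∧
      ∃ i < N, ∃ w : ℂ, ‖w - u‖ ≤ s ∧ Real.exp (-(n i * (t - 90 * l ^ 2 * M * s))) < ‖c i w‖} ≤
      ENNReal.ofReal (14 / l) := by
  have mp : ∀ z : ℂ, ((Real.arcsin z.im : ℝ) : ℂ) ∈ ball (0 : ℂ) 2 := fun z => by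
    rw [mem_ball_zero_iff, norm_real, Real.norm_eq_abs, abs_lt]
    constructor <;>
      linarith [Real.neg_pi_div_two_le_arcsin z.im, Real.arcsin_le_pi_div_two z.im, Real.pi_lt_four]
  obtain ⟨F, cF, F0, F1, F2⟩ := env (fun i (z : ℂ) => ‖c i (Real.arcsin z.im : ℝ)‖)
    (fun i => ((dc i).continuousOn.comp_continuous (continuous_ofReal.comp
      (Real.continuous_arcsin.comp continuous_im)) mp).norm) n hn M N
  have F3 : ∀ z, 0 ≤ F z := fun z => F2 z 0 M0.le fun i _ => by simpa using c1 i _ (mp z)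
  obtain ⟨v, cv, hv, vg⟩ := exists_dirichlet (g := fun z => min (F z) (5 * M * (z.re - 2 / 3)))
    one_pos (cF.min (by fun_prop)).continuousOn
  obtain ⟨H, aH, e⟩ := HarmonicOnNhd.exists_analyticOnNhd_ball_re_eq hv
  have dH := aH.differentiableOn
  have e : ∀ z ∈ ball (0 : ℂ) 1, (H z).re = v z := fun z hz => e hz
  have v1 : ∀ z ∈ closedBall (0 : ℂ) 1, v z ≤ M :=
    maxd dH cv e fun z hz => (vg z hz).trans_le ((min_le_left _ _).trans (F0 z))
  have v2 : ∀ z ∈ closedBall (0 : ℂ) 1, v z ≤ 5 * M * (z.re - 2 / 3) := fun z hz => by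
    have := maxd (H := fun z => H z - (5 * M : ℝ) * z) (v := fun z => v z - 5 * M * z.re)
      (C := -(5 * M * (2 / 3))) (dH.sub (by fun_prop)) (cv.sub (by fun_prop))
      (fun z hz => by rw [sub_re, re_ofReal_mul, e z hz])
      (fun z hz => by linarith [(vg z hz).trans_le (min_le_right _ _)]) z hz
    linarith
  have sp : ∀ u : ℝ, ee u ∈ sphere (0 : ℂ) 1 := fun u => by simp [norm_ee]
  have as : ∀ u : ℝ, |u| ≤ 1 → Real.arcsin (ee u).im = u := fun u hu => by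
    rw [ee_im, ofReal_im, ofReal_re, neg_zero, Real.exp_zero, one_mul]
    exact Real.arcsin_sin (by linarith [(abs_le.1 hu).1, Real.pi_gt_three])
      (by linarith [(abs_le.1 hu).2, Real.pi_gt_three])
  have sh : ∀ i < N, ∀ σ : ℝ, 0 ≤ σ → σ ≤ 1 → ∀ w : ℂ, |w.re| ≤ 1 → -(σ / 2) ≤ w.im →
      w.im ≤ 1 / 2 → ‖c i w‖ ≤ Real.exp (-(n i * v (ee (w + σ * I)))) := fun i hi σ σ0 σ1 =>
    shift dH cv e (by positivity) v2 (dc i) (c1 i) (hn i).le σ0 σ1 fun u hu => by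
      have := F1 (ee u) i hi
      rw [as u hu] at this
      exact this.trans (Real.exp_le_exp.2 (neg_le_neg (mul_le_mul_of_nonneg_left
        ((vg _ (sp u)).trans_le (min_le_left _ _)) (hn i).le)))
  refine le_trans (measure_mono ?_) (harm (K := 5 * M) dH cv hv e (by positivity) s0 s1 l1
    fun σ σ0 σ1 z hz => ?_)
  · rintro u ⟨hu, t, ht, h1, i, hi, w, hw, h2⟩
    have u1 : |u| ≤ 1 := by linarith
    refine ⟨u1, w, hw, not_le.1 fun k => h2.not_ge ?_⟩
    have r1 := abs_le.1 ((abs_re_le_norm _).trans hw)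
    have r2 := abs_le.1 ((abs_im_le_norm _).trans hw)
    simp only [sub_re, sub_im, ofReal_re, ofReal_im, sub_zero] at r1 r2
    have r3 := abs_le.1 hu
    refine (sh i hi (2 * s) (by linarith) (by linarith) w (abs_le.2 ⟨by linarith, by linarith⟩)
      (by linarith) (by linarith)).trans (Real.exp_le_exp.2 (neg_le_neg
        (mul_le_mul_of_nonneg_left ?_ (hn i).le)))
    have t1 : t ≤ F (ee u) := F2 _ t ht fun j hj => by
      rw [as u u1]
      exact h1 j hj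
    have t2 : t ≤ 5 * M * ((ee u).re - 2 / 3) := by
      rw [ee_re, ofReal_im, ofReal_re, neg_zero, Real.exp_zero, one_mul]
      have := Real.one_sub_sq_div_two_le_cos (x := u)
      have q : u ^ 2 ≤ 1 / 4 := by nlinarith
      nlinarith
    have t3 : t ≤ v (ee u) := by
      rw [vg _ (sp u)]
      exact le_min t1 t2
    linarith
  · have z1 : ‖z‖ = 1 := mem_sphere_zero_iff_norm.1 hz
    have e1 : Real.exp (-σ) ≤ 1 := Real.exp_le_one_iff.2 (by linarith)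
    have e2 := Real.add_one_le_exp (-σ)
    have m : ((Real.exp (-σ) : ℝ) : ℂ) * z ∈ closedBall (0 : ℂ) 1 := by
      rw [mem_closedBall_zero_iff, norm_mul, z1, mul_one, norm_real,
        Real.norm_of_nonneg (Real.exp_pos _).le]
      exact e1
    have r1 := abs_le.1 ((abs_re_le_norm z).trans z1.le)
    have r2 := abs_le.1 ((abs_im_le_norm z).trans z1.le)
    have a1 : v ((Real.exp (-σ) : ℝ) * z) ≤ 5 * M * (z.re - 2 / 3) + 5 * M * σ := by
      refine (v2 _ m).trans ?_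
      rw [re_ofReal_mul]
      have : Real.exp (-σ) * z.re ≤ z.re + σ := by nlinarith
      nlinarith
    rw [vg z hz, ← sub_le_iff_le_add]
    refine le_min ?_ (by linarith)
    by_cases k : z.re ≤ 2 / 3
    · have : 5 * M * (z.re - 2 / 3) ≤ 0 := mul_nonpos_of_nonneg_of_nonpos (by positivity)
        (by linarith)
      linarith [F3 z]
    set u := Real.arcsin z.im with hu
    have q : z.re ^ 2 + z.im ^ 2 = 1 := by
      have := Complex.sq_norm z
      rw [z1, normSq_apply] at this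
      linarith
    have cu : Real.cos u = z.re := by
      rw [hu, Real.cos_arcsin, show 1 - z.im ^ 2 = z.re ^ 2 by linarith,
        Real.sqrt_sq (by linarith)]
    have ez : ee u = z := Complex.ext (by simp [ee_re, cu])
      (by simp [ee_im, hu, Real.sin_arcsin r2.1 r2.2])
    have u1 : |u| ≤ 1 := by
      by_contra hc
      have := Real.cos_le_cos_of_nonneg_of_le_pi zero_le_one (y := |u|) (abs_le.2 ⟨by
        linarith [Real.neg_pi_div_two_le_arcsin z.im, Real.pi_pos], by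
        linarith [Real.arcsin_le_pi_div_two z.im, Real.pi_pos]⟩) (not_le.1 hc).le
      rw [Real.cos_abs, cu] at this
      linarith [Real.cos_one_le]
    have := F2 z _ (v1 _ m) fun i hi => by
      have := sh i hi σ σ0.le σ1 u (by simpa using u1) (by rw [ofReal_im]; linarith)
        (by rw [ofReal_im]; norm_num)
      rwa [ee_add, ez] at this
    have p : 0 ≤ 5 * M * σ := by positivity
    linarith

/-- the cone on the disc of radius two -/
theorem osc0 {ι : Type*} {c : ι → ℂ → ℂ} {n : ι → ℝ} {M s l : ℝ}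
    (dc : ∀ i, DifferentiableOn ℂ (c i) (ball 0 2)) (c1 : ∀ i, ∀ w ∈ ball (0 : ℂ) 2, ‖c i w‖ ≤ 1)
    (hn : ∀ i, 0 < n i) (M0 : 0 < M) (s0 : 0 < s) (s1 : s ≤ 1 / 2) (l1 : 1 ≤ l) :
    volume {u : ℝ | |u| ≤ 1 / 2 ∧ ∃ t ≤ M, (∀ i, ‖c i u‖ ≤ Real.exp (-(n i * t))) ∧
      ∃ i, ∃ w : ℂ, ‖w - u‖ ≤ s ∧ Real.exp (-(n i * (t - 90 * l ^ 2 * M * s))) < ‖c i w‖} ≤
      ENNReal.ofReal (14 / l) := by
  rcases isEmpty_or_nonempty ι with hι | ⟨⟨i₀⟩⟩
  · simp
  have k1 : ∀ q : ℚ, ∃ T : Set ι, T.Countable ∧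
      ⋃ i ∈ T, ball (0 : ℂ) 2 ∩ (fun w => ‖c i w‖) ⁻¹' Ioi (Real.exp (-(n i * q))) =
        ⋃ i, ball (0 : ℂ) 2 ∩ (fun w => ‖c i w‖) ⁻¹' Ioi (Real.exp (-(n i * q))) := fun q =>
    TopologicalSpace.isOpen_iUnion_countable _ fun i =>
      (dc i).continuousOn.norm.isOpen_inter_preimage isOpen_ball isOpen_Ioi
  choose T hT eT using k1
  obtain ⟨f, hf⟩ := ((countable_iUnion hT).insert i₀).exists_eq_range (insert_nonempty _ _)
  set B : ℕ → Set ℝ := fun N => {u : ℝ | |u| ≤ 1 / 2 ∧ ∃ t ≤ M,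
    (∀ i, ‖c i u‖ ≤ Real.exp (-(n i * t))) ∧ ∃ j < N, ∃ w : ℂ, ‖w - u‖ ≤ s ∧
      Real.exp (-(n (f j) * (t - 90 * l ^ 2 * M * s))) < ‖c (f j) w‖} with hB
  have mono : Monotone B := fun N N' h u ⟨h1, t, h2, h3, j, h4, h5⟩ =>
    ⟨h1, t, h2, h3, j, h4.trans_le h, h5⟩
  refine (measure_mono (t := ⋃ N, B N) ?_).trans ?_
  · rintro u ⟨hu, t, ht, h1, i, w, hw, h2⟩
    have wb : w ∈ ball (0 : ℂ) 2 := by
      have := norm_add_le (w - u) u
      rw [sub_add_cancel, norm_real, Real.norm_eq_abs] at this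
      rw [mem_ball_zero_iff]
      linarith
    have ev : ∀ᶠ x : ℝ in 𝓝 (t - 90 * l ^ 2 * M * s), Real.exp (-(n i * x)) < ‖c i w‖ :=
      (by fun_prop : Continuous fun x : ℝ => Real.exp (-(n i * x))).continuousAt.eventually
        (gt_mem_nhds h2)
    obtain ⟨a, b, hab, hs⟩ := mem_nhds_iff_exists_Ioo_subset.1 ev
    obtain ⟨q, q1, q2⟩ := exists_rat_btwn hab.1
    have m : w ∈ ⋃ i ∈ T q, ball (0 : ℂ) 2 ∩ (fun w => ‖c i w‖) ⁻¹'
        Ioi (Real.exp (-(n i * q))) := by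
      rw [eT]
      exact mem_iUnion.2 ⟨i, wb, hs ⟨q1, q2.trans hab.2⟩⟩
    obtain ⟨i', m1, -, m2⟩ := mem_iUnion₂.1 m
    obtain ⟨j, rfl⟩ : i' ∈ range f := hf ▸ Or.inr (mem_iUnion.2 ⟨q, m1⟩)
    exact mem_iUnion.2 ⟨j + 1, hu, t, ht, h1, j, by omega, w, hw, lt_of_le_of_lt
      (Real.exp_le_exp.2 (neg_le_neg (mul_le_mul_of_nonneg_left q2.le (hn _).le))) m2⟩
  · rw [mono.measure_iUnion]
    refine iSup_le fun N => le_trans (measure_mono ?_) (fin (c := fun j => c (f j))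
      (n := fun j => n (f j)) (fun j => dc _) (fun j => c1 _) (fun j => hn _) M0 s0 s1 l1 N)
    rintro u ⟨h1, t, h2, h3, h4⟩
    exact ⟨h1, t, h2, fun i _ => h3 _, h4⟩

/-- **The cone.** `c i` are holomorphic and bounded by one on a disc with a real centre. Off a
small set of real points `u`, a bound `exp (-n i * t)`, `t ≤ M`, of all `c i` at `u` persists on
the disc of radius `s` about `u` with a loss which is linear in `s`. -/
theorem osc {ι : Type*} {c : ι → ℂ → ℂ} {n : ι → ℝ} {u₁ ρ M s l : ℝ}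
    (dc : ∀ i, DifferentiableOn ℂ (c i) (ball u₁ ρ))
    (c1 : ∀ i, ∀ w ∈ ball (u₁ : ℂ) ρ, ‖c i w‖ ≤ 1)
    (hn : ∀ i, 0 < n i) (M0 : 0 < M) (s0 : 0 < s) (s1 : s ≤ ρ / 4) (l1 : 1 ≤ l) :
    volume {u : ℝ | |u - u₁| ≤ ρ / 4 ∧ ∃ t ≤ M, (∀ i, ‖c i u‖ ≤ Real.exp (-(n i * t))) ∧
      ∃ i, ∃ w : ℂ, ‖w - u‖ ≤ s ∧
        Real.exp (-(n i * (t - 180 * l ^ 2 * M * s / ρ))) < ‖c i w‖} ≤
      ENNReal.ofReal (7 * ρ / l) := by
  have ρ0 : 0 < ρ := by linarith
  have mp : ∀ z ∈ ball (0 : ℂ) 2, (u₁ : ℂ) + (ρ / 2 : ℝ) * z ∈ ball (u₁ : ℂ) ρ := fun z hz => by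
    rw [mem_ball_iff_norm, add_sub_cancel_left, norm_mul, norm_real,
      Real.norm_of_nonneg (by positivity)]
    nlinarith [mem_ball_zero_iff.1 hz]
  have k := osc0 (c := fun i z => c i (u₁ + (ρ / 2 : ℝ) * z)) (n := n) (M := M) (s := 2 * s / ρ)
    (fun i => (dc i).comp (by fun_prop) mp) (fun i z hz => c1 i _ (mp z hz)) hn M0
    (by positivity) (by rw [div_le_iff₀ ρ0]; linarith) l1
  set B := {u : ℝ | |u| ≤ 1 / 2 ∧ ∃ t ≤ M,
    (∀ i, ‖c i (u₁ + (ρ / 2 : ℝ) * (u : ℂ))‖ ≤ Real.exp (-(n i * t))) ∧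
      ∃ i, ∃ w : ℂ, ‖w - u‖ ≤ 2 * s / ρ ∧ Real.exp (-(n i * (t - 90 * l ^ 2 * M * (2 * s / ρ)))) <
        ‖c i (u₁ + (ρ / 2 : ℝ) * w)‖} with hB
  have ρ1 : (ρ : ℂ) ≠ 0 := ofReal_ne_zero.2 ρ0.ne'
  refine (measure_mono (t := (fun u => u + -u₁) ⁻¹' ((fun u => 2 / ρ * u) ⁻¹' B)) ?_).trans ?_
  · rintro u ⟨hu, t, ht, h1, i, w, hw, h2⟩
    refine ⟨?_, t, ht, fun j => ?_, i, (2 / ρ : ℝ) * (w - u₁), ?_, ?_⟩
    · beta_reduce
      rw [abs_mul, abs_of_pos (by positivity), ← sub_eq_add_neg, div_mul_eq_mul_div,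
        div_le_iff₀ ρ0]
      linarith
    · convert h1 j using 3
      push_cast
      field_simp
      ring
    · have : ((2 / ρ : ℝ) : ℂ) * (w - u₁) - ((2 / ρ * (u + -u₁) : ℝ) : ℂ) =
          (2 / ρ : ℝ) * (w - u) := by
        push_cast
        ring
      rw [this, norm_mul, norm_real, Real.norm_of_nonneg (by positivity), div_mul_eq_mul_div]
      gcongr
    · convert h2 using 3
      · ring
      · push_cast
        field_simp
        ring
  · rw [measure_preimage_add_right, Real.volume_preimage_mul_left (by positivity),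
      abs_of_pos (by positivity)]
    refine (mul_le_mul_right k _).trans_eq ?_
    rw [← ENNReal.ofReal_mul (by positivity)]
    congr 1
    field_simp
    ring

end Vale.Agent.P097F.H.Cone
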