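import Vale.Agent.P097F.Defs
import Vale.Agent.P097F.H.Defs
import Vale.Agent.P097Mo.Win

/-!
# P097F, block H: absolute coordinates and window coordinates, one window
-/

set_option linter.all false

noncomputable section

namespace Vale.Agent.P097F

open Filter Topology Set Metric Complex Vale.Agent.P097T

namespace DD

variable (X : DD)

/-- the window coordinate of a point of the strip -/
def zw (u s : ℝ) (y : ℂ) : ℂ := (y - s - X.r * I) / X.η u

/-- from (point, step) to the window -/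
def tw (u s : ℝ) (q : ℂ × ℂ) : ℂ × ℂ := (q.2 / u, X.zw u s q.1)

/-- from the window to (point, step) -/
def ta (u s : ℝ) (q : ℂ × ℂ) : ℂ × ℂ := (X.wy u s q.2, u * q.1)

/-- a window in which all the scales are separated -/
structure Gd (u W₁ : ℝ) : Prop where
  u0 : 0 < u
  e0 : 0 < X.η u
  le : u ≤ X.η u
  hi : 4 * W₁ * u < X.u₀
  dr : 6 * (W₁ ^ 5 * X.η u) ≤ X.r
  eta : ∀ t : ℝ, |t - 2 * W₁ * u| < 2 * (3 / 4 * W₁ * u) → X.η t ≤ W₁ ^ 5 * X.η u

variable {X} {u s : ℝ}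

theorem wy_re (z : ℂ) : (X.wy u s z).re = s + X.η u * z.re := by simp [wy]

theorem wy_im (z : ℂ) : (X.wy u s z).im = X.r + X.η u * z.im := by simp [wy]

theorem wy_zw (e : 0 < X.η u) (y : ℂ) : X.wy u s (X.zw u s y) = y := by
  have : (X.η u : ℂ) ≠ 0 := by exact_mod_cast e.ne'
  simp only [wy, zw]
  field_simp
  ring

theorem zw_wy (e : 0 < X.η u) (z : ℂ) : X.zw u s (X.wy u s z) = z := by
  have : (X.η u : ℂ) ≠ 0 := by exact_mod_cast e.ne'
  simp only [wy, zw]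
  field_simp
  ring

theorem ta_tw (u0 : 0 < u) (e : 0 < X.η u) (q : ℂ × ℂ) : X.ta u s (X.tw u s q) = q := by
  have : (u : ℂ) ≠ 0 := by exact_mod_cast u0.ne'
  exact Prod.ext (wy_zw e _) (by simp only [ta, tw]; field_simp)

theorem tw_ta (u0 : 0 < u) (e : 0 < X.η u) (q : ℂ × ℂ) : X.tw u s (X.ta u s q) = q := by
  have : (u : ℂ) ≠ 0 := by exact_mod_cast u0.ne'
  exact Prod.ext (by simp only [ta, tw]; field_simp) (zw_wy e _)

theorem an_wy (z : ℂ) : AnalyticAt ℂ (X.wy u s) z := by unfold wy; fun_prop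

theorem an_zw (z : ℂ) : AnalyticAt ℂ (X.zw u s) z := by unfold zw; fun_prop

theorem an_tw (q : ℂ × ℂ) : AnalyticAt ℂ (X.tw u s) q :=
  (analyticAt_snd.div_const (c := (u : ℂ))).prod ((an_zw _).comp analyticAt_fst)

theorem an_ta (q : ℂ × ℂ) : AnalyticAt ℂ (X.ta u s) q :=
  ((an_wy _).comp analyticAt_snd).prod (analyticAt_const.mul analyticAt_fst)

theorem norm_zw (e : 0 < X.η u) (y y' : ℂ) :
    ‖X.zw u s y - X.zw u s y'‖ * X.η u = ‖y - y'‖ := by
  rw [show X.zw u s y - X.zw u s y' = (y - y') / X.η u by simp only [zw]; ring, norm_div,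
    norm_real, Real.norm_of_nonneg e.le, div_mul_cancel₀ _ e.ne']

/-- the deep chart of a window is an a priori chart -/
theorem apr_of {W₁ k : ℝ} {Z : ℂ × ℂ → ℂ} (G : X.Gd u W₁) (w3 : 3 ≤ W₁)
    (an : AnalyticOnNhd ℂ Z (Ud W₁ ×ˢ Bx k (W₁ ^ 6 + W₁ ^ 5) (W₁ ^ 5) (X.r / (2 * X.η u))))
    (bd : ∀ q ∈ Ud W₁ ×ˢ Bx k (W₁ ^ 6 + W₁ ^ 5) (W₁ ^ 5) (X.r / (2 * X.η u)), ‖Z q - q.2‖ ≤ 1)
    (eq : ∀ v : ℝ, (v : ℂ) ∈ Ud W₁ → ∀ x ∈ Bx k (W₁ ^ 6 + W₁ ^ 5) (W₁ ^ 5) (X.r / (2 * X.η u)),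
      x.im < -X.pw u v → Z =ᶠ[𝓝 ((v : ℂ), x)] X.Yw u s v) :
    H.Apr X.r X.u₀ X.η X.Y (s + X.η u * k) (W₁ ^ 6 * X.η u) (W₁ ^ 5 * X.η u) (2 * W₁ * u)
      (3 / 4 * W₁ * u) fun q => X.wy u s (Z (X.tw u s q)) := by
  have u0 := G.u0
  have e0 := G.e0
  have m1 : 243 ≤ W₁ ^ 5 := le_of_eq_of_le (by norm_num) (pow_le_pow_left₀ (by norm_num) w3 5)
  have dr := G.dr
  have mp : ∀ q ∈ H.Bx ⟨s + X.η u * k, X.r - 2 * (W₁ ^ 5 * X.η u)⟩
      (W₁ ^ 6 * X.η u + W₁ ^ 5 * X.η u) (W₁ ^ 5 * X.η u) ×ˢ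
      ball ((2 * W₁ * u : ℝ) : ℂ) (2 * (3 / 4 * W₁ * u)),
      X.tw u s q ∈ Ud W₁ ×ˢ Bx k (W₁ ^ 6 + W₁ ^ 5) (W₁ ^ 5) (X.r / (2 * X.η u)) ∧
        -(3 * W₁ ^ 5) < (X.tw u s q).2.im := by
    rintro ⟨y, w⟩ ⟨⟨h1, h2⟩, h3⟩
    obtain ⟨x, rfl⟩ : ∃ x, y = X.wy u s x := ⟨_, (wy_zw e0 y).symm⟩
    simp only [wy_re, wy_im, abs_lt] at h1 h2
    simp only [tw, zw_wy e0]
    have i1 : -(3 * W₁ ^ 5) < x.im := by nlinarith [h2.1]
    refine ⟨⟨?_, by nlinarith [h1.1], by nlinarith [h1.2], ?_, by nlinarith [h2.2]⟩, i1⟩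
    · have : (u : ℂ) ≠ 0 := by exact_mod_cast u0.ne'
      simp only [Ud, mem_ball, dist_eq_norm] at h3 ⊢
      rw [show w / u - 2 * W₁ = (w - ((2 * W₁ * u : ℝ) : ℂ)) / u by push_cast; field_simp,
        norm_div, norm_real, Real.norm_of_nonneg u0.le, div_lt_iff₀ u0]
      linarith
    · have : 3 * W₁ ^ 5 ≤ X.r / (2 * X.η u) := by rw [le_div_iff₀ (by positivity)]; linarith
      linarith
  refine ⟨by positivity, by nlinarith, by positivity, by nlinarith, by nlinarith [G.hi], ?_,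
    fun q hq => (an_wy _).comp ((an _ (mp q hq).1).comp (an_tw q)), fun q hq => ?_, G.eta,
    fun t ht => ?_⟩
  · have : 14 * W₁ ≤ W₁ ^ 6 := by nlinarith
    nlinarith [G.le, mul_le_mul this G.le u0.le (by positivity)]
  · obtain ⟨h1, h2⟩ := mp q hq
    have h3 := abs_le.1 ((abs_im_le_norm _).trans (bd _ h1))
    have h4 : (X.tw u s q).2.im < -W₁ ^ 5 := h1.2.2.2.2
    rw [sub_im] at h3
    show |(X.wy u s _).im| < X.r
    rw [wy_im, abs_lt]
    constructor <;> nlinarith [h3.1, h3.2]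
  · set q : ℂ × ℂ := (⟨s + X.η u * k, X.r - 2 * (W₁ ^ 5 * X.η u)⟩, (t : ℂ)) with hq
    have hm := (mp q ⟨⟨by simp [hq]; positivity, by simp [hq]; positivity⟩, by
      rwa [hq, mem_ball, dist_eq_norm, ← ofReal_sub, norm_real, Real.norm_eq_abs]⟩).1
    have e1 : (X.tw u s q).1 = ((t / u : ℝ) : ℂ) := by simp [tw, hq]
    have e2 : u * (t / u) = t := by field_simp
    have e3 : X.η u * (X.tw u s q).2.im = -(2 * (W₁ ^ 5 * X.η u)) := by
      have := wy_im (X := X) (u := u) (s := s) (X.tw u s q).2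
      rw [show X.wy u s (X.tw u s q).2 = q.1 from wy_zw e0 _] at this
      simp only [hq] at this
      linarith
    have h := eq (t / u) (e1 ▸ hm.1) _ hm.2 (by
      rw [pw, e2, lt_neg, div_lt_iff₀ e0]
      nlinarith [G.eta t ht])
    rw [← e1] at h
    filter_upwards [(an_tw q).continuousAt.eventually h] with p hp
    rw [hp]
    show X.wy u s (X.zw u s (X.Y (u * (t / u)) (X.ta u s (X.tw u s p)))) = _
    rw [wy_zw e0, ta_tw u0 e0, e2]

/-- the wedge of the window lies below the cone -/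
theorem wd_cd {k L T ρ K C v b L' B b' K' C' σ : ℝ} (u0 : 0 < u) (e0 : 0 < X.η u)
    (hL : L' = L * X.η u) (hB : B = X.r - T * X.η u) (hb : b * X.η u = b' * u)
    (hK : K * X.η u = K' * u ^ 2) (hC : C * X.η u = C' * u) (hσ : ρ * u ≤ σ) {q : ℂ × ℂ}
    (h : q ∈ Wd k L T ρ K C v (-X.pw u v) b) :
    X.ta u s q ∈ H.CD (s + X.η u * k) L' B (X.r - X.η (u * v)) (u * v) b' K' C' σ := by
  obtain ⟨h1, h2, h3, h4⟩ := h
  refine ⟨?_, ?_, ?_, ?_⟩
  · simp only [ta, wy_re]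
    rw [show s + X.η u * q.2.re - (s + X.η u * k) = (q.2.re - k) * X.η u by ring, abs_mul,
      abs_of_pos e0, hL]
    gcongr
  · simp only [ta, wy_im]
    nlinarith
  · simp only [ta, wy_im, re_ofReal_mul, im_ofReal_mul, abs_mul, abs_of_pos u0]
    have := mul_lt_mul_of_pos_left h4 e0
    have e : X.η u * X.pw u v = X.η (u * v) := by rw [pw]; field_simp
    have e1 : X.η u * (-X.pw u v - b * (q.1.re - v) - K * (q.1.re - v) ^ 2 - C * |q.1.im|) =
        -X.η (u * v) - b' * (u * q.1.re - u * v) - K' * (u * q.1.re - u * v) ^ 2 -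
          C' * (u * |q.1.im|) := by
      linear_combination -e - (q.1.re - v) * hb - (q.1.re - v) ^ 2 * hK - |q.1.im| * hC
    linarith
  · simp only [ta]
    rw [mem_ball, dist_eq_norm] at h1
    rw [show (u : ℂ) * q.1 - ((u * v : ℝ) : ℂ) = u * (q.1 - v) by push_cast; ring, norm_mul,
      norm_real, Real.norm_of_nonneg u0.le]
    nlinarith

/-- the true family in window units -/
theorem tru_of {v : ℝ} {D O : Set (ℂ × ℂ)} {Z : ℂ × ℂ → ℂ} (u0 : 0 < u) (e0 : 0 < X.η u)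
    (hv : u * v ∈ Ioo 0 X.u₀) (mp : ∀ q ∈ O, X.ta u s q ∈ D) (T : H.Tru X.r X.θ X.H X.Y D Z) :
    Tru (X.ep u) (X.θw u s) (X.hw u s) (X.Uw u s) O v (-X.pw u v)
      fun q => X.zw u s (Z (X.ta u s q)) := by
  have ec : (X.η u : ℂ) ≠ 0 := by exact_mod_cast e0.ne'
  have uc : (u : ℂ) ≠ 0 := by exact_mod_cast u0.ne'
  have sh : ∀ W x : ℂ, X.wy u s (x + X.ep u * W) = X.wy u s x + u * W ∧
      X.wy u s (x - X.ep u * W) = X.wy u s x - u * W := fun W x => by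
    simp only [wy, ep]
    push_cast
    constructor <;> field_simp <;> ring
  refine ⟨fun q hq => (an_zw _).comp ((T.an _ (mp q hq)).comp (an_ta q)), fun q hq => ?_,
    fun W x h1 h2 h3 => ?_, fun x₁ δ F₀ F₁ x1 δ0 a0 a1 m0 m1 hF => ?_⟩
  · show X.wy u s (X.zw u s _) ∈ Strip X.r
    rw [wy_zw e0]
    exact T.mem (mp q hq)
  · have k1 := mp _ h1
    have k3 := mp _ h3
    simp only [ta, (sh W x).1, (sh W x).2] at k1 k3 ⊢
    have := P097Mo.ee_win (θ := X.θ) (h := X.H) (s + X.r * I) ec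
      ((P097N.Bridge.law_eq ..).symm.trans (T.law _ _ k1 (mp _ h2) k3))
    simp only [zw, sub_sub]
    exact this
  · set ρ := min (δ * X.η u) (δ * u) with hρ
    have mb : ∀ q ∈ ball (X.wy u s x₁) ρ ×ˢ ball ((u * v : ℝ) : ℂ) ρ,
        X.tw u s q ∈ ball (v : ℂ) δ ×ˢ ball x₁ δ := by
      rintro ⟨y, w⟩ ⟨h1, h2⟩
      simp only [mem_prod, mem_ball, dist_eq_norm, tw] at h1 h2 ⊢
      constructor
      · rw [show w / u - v = (w - ((u * v : ℝ) : ℂ)) / u by push_cast; field_simp, norm_div,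
          norm_real, Real.norm_of_nonneg u0.le, div_lt_iff₀ u0]
        exact h2.trans_le (min_le_right _ _)
      · have := norm_zw (s := s) e0 y (X.wy u s x₁)
        rw [zw_wy e0] at this
        exact lt_of_mul_lt_mul_right (this.trans_lt (h1.trans_le (min_le_left _ _))) e0.le
    have e : X.η u * X.pw u v = X.η (u * v) := by rw [pw]; field_simp
    refine X.dat.fam.up (u * v) hv (X.wy u s x₁) ρ (fun q => X.wy u s (F₀ (X.tw u s q)))
      (fun q => X.wy u s (F₁ (X.tw u s q))) (by rw [wy_im, x1]; linarith)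
      (lt_min (by positivity) (by positivity))
      (fun q hq => (an_wy _).comp ((a0 _ (mb q hq)).comp (an_tw q)))
      (fun q hq => (an_wy _).comp ((a1 _ (mb q hq)).comp (an_tw q)))
      (fun q hq => m0 (mb q hq)) (fun q hq => m1 (mb q hq)) fun y hy => ?_
    obtain ⟨x, rfl⟩ : ∃ x, y = X.wy u s x := ⟨_, (wy_zw e0 y).symm⟩
    have e1 : X.ta u s ((v : ℂ), x) = (X.wy u s x, ((u * v : ℝ) : ℂ)) := by simp [ta]
    have e2 : X.tw u s (X.wy u s x, ((u * v : ℝ) : ℂ)) = ((v : ℂ), x) := by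
      rw [← e1, tw_ta u0 e0]
    have xb := (mb (X.wy u s x, ((u * v : ℝ) : ℂ))
      ⟨hy.1, mem_ball_self (lt_min (by positivity) (by positivity))⟩).2
    rw [e2] at xb
    obtain ⟨o1, o2, f0, f1⟩ := hF x xb (by
      have := (le_abs_self _).trans_lt (show |(X.wy u s x).im| < _ from hy.2)
      rw [wy_im] at this
      nlinarith)
    have ct := (an_tw (X := X) (u := u) (s := s) (X.wy u s x, ((u * v : ℝ) : ℂ))).continuousAt
    rw [ContinuousAt, e2] at ct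
    have k1 := mp _ o1
    have k2 := mp _ o2
    rw [e1] at k1
    simp only [ta, (sh v x).1] at k2
    rw [← ofReal_mul] at k2
    constructor
    · filter_upwards [ct.eventually f0, T.eq _ _ k1] with p h1 h2
      rw [h1, wy_zw e0, ta_tw u0 e0, h2]
    · filter_upwards [ct.eventually f1, (Continuous.tendsto (f := fun q : ℂ × ℂ => (q.1 + q.2, q.2))
        (by fun_prop) _).eventually (T.eq _ _ k2)] with p h1 h2
      rw [h1, wy_zw e0, ← h2]
      simp only [ta, (sh _ _).1, tw, wy_zw e0, mul_div_cancel₀ _ uc]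

end DD

end Vale.Agent.P097F
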